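import Vale.Agent.P291.H564.Sum
import Vale.Agent.P291.H415.N3.Defs

/-!
# P291, stage 2, N4: the count of nilpotent pairs in the format of N3
-/

set_option linter.unusedSectionVars false

open Module LinearMap

namespace Vale.Agent.P291.H564

/-- numbers of parts `> s`, the framing space of dimension `w` counts as `w` parts equal to `1` -/
def plo {I : Type*} (w : ℕ) (l : I → ℕ → ℕ) : Option I → ℕ → ℕ
  | none, s => if s = 0 then w else 0
  | some i, s => l i s

theorem lam_zero_end {K V : Type*} [Field K] [AddCommGroup V] [Module K V]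
    [FiniteDimensional K V] (s : ℕ) :
    lam (0 : End K V) s = if s = 0 then finrank K V else 0 := by
  have h1 : ∀ j, rk (0 : End K V) (j + 1) = 0 := fun j => by
    rw [rk, pow_succ, mul_zero, LinearMap.range_zero, finrank_bot]
  cases s with
  | zero => rw [lam, rk_zero, h1, if_pos rfl, Nat.sub_zero]
  | succ s => rw [lam, h1, h1, if_neg (Nat.succ_ne_zero s)]

theorem lam_ex {k : Type*} [Field k] {I : Type*} {V : Option I → Type*}
    [∀ j, AddCommGroup (V j)] [∀ j, Module k (V j)] [∀ j, Module.Finite k (V j)]
    (ξ : N3.Lie k V) (j : Option I) :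
    lam (N3.ex ξ j : End k (V j)) = plo (finrank k (V none)) (fun i => lam (ξ i : End k (V (some i)))) j := by
  funext s
  cases j with
  | none => exact lam_zero_end s
  | some i => rfl

variable {k : Type*} [Field k] [Fintype k] {I E : Type*} [Fintype E] [Fintype I] [DecidableEq I]
  {Q : N3.Qv I E}
variable {V : Option I → Type*} [∀ j, AddCommGroup (V j)] [∀ j, Module k (V j)]
  [∀ j, Module.Finite k (V j)]

/-- **N4**: the number of pairs `(ξ, x)`, `ξ` nilpotent, `ξ x = 0` -/
theorem card_nil (n : I → ℕ) (hn : ∀ i, finrank k (V (some i)) = n i) :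
    (Nat.card {z : N3.Lie k V × N3.Rep k Q V //
      (∀ i, IsNilpotent (z.1 i : End k (V (some i)))) ∧ N3.dot z.1 z.2 = 0} : ℚ) =
    ∑ p : ∀ i, (n i).Partition,
      (∏ i, (gl (Fintype.card k) (n i) / ap (Fintype.card k) (p i))) *
        ∏ a, (Fintype.card k : ℚ) ^ (∑ s ∈ Finset.range (n (Q.src a)),
          pl (p (Q.src a)) s * plo (finrank k (V none)) (fun i => pl (p i)) (Q.tgt a) s) := by
  have h := main_count (K := k) (U := fun i => V (some i)) n hn Q.src
    (T := fun a => V (Q.tgt a)) (fun ξ a => N3.ex ξ (Q.tgt a))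
    (fun l a => plo (finrank k (V none)) l (Q.tgt a)) (fun ξ _ a => lam_ex ξ (Q.tgt a))
  rw [← h]
  congr 1
  refine Nat.card_congr (Equiv.subtypeEquivRight fun z => ?_)
  refine and_congr_right fun _ => ?_
  constructor
  · intro h0 a
    have := congrFun h0 a
    exact sub_eq_zero.1 this
  · intro h0
    funext a
    exact sub_eq_zero.2 (h0 a)

end Vale.Agent.P291.H564
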