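import Mathlib

/-!
# P291, stage 2, N4: homomorphisms between nilpotent endomorphisms

For endomorphisms `f` of `V` and `g` of `V'` (finite dimensional, `f` nilpotent) the space of
linear maps `x : V → V'` with `g x = x f` has dimension `∑ j, lam f j * lam g j`, where
`lam f j = rank (f^j) - rank (f^(j+1))` is the number of Jordan blocks of size `> j`.
-/

open Module LinearMap

namespace Vale.Agent.P291.H564

variable {K V V' : Type*} [Field K] [AddCommGroup V] [Module K V] [AddCommGroup V'] [Module K V']

/-- rank of the `j`-th power -/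
noncomputable def rk (f : End K V) (j : ℕ) : ℕ := finrank K (range (f ^ j))

/-- number of blocks of size `> j` -/
noncomputable def lam (f : End K V) (j : ℕ) : ℕ := rk f j - rk f (j + 1)

/-- restriction of `f` to its range -/
noncomputable def res (f : End K V) : End K (range f) :=
  f.restrict (p := range f) (q := range f) fun x _ => mem_range_self f x

@[simp] theorem res_coe (f : End K V) (x : range f) : (res f x : V) = f x := rfl

theorem res_pow_coe (f : End K V) (j : ℕ) (x : range f) : (((res f) ^ j) x : V) = (f ^ j) x := by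
  induction j generalizing x with
  | zero => rfl
  | succ j ih => rw [pow_succ, pow_succ, Module.End.mul_apply, Module.End.mul_apply, ih]; rfl

theorem map_range_res_pow (f : End K V) (j : ℕ) :
    (range ((res f) ^ j)).map (range f).subtype = range (f ^ (j + 1)) := by
  ext y
  constructor
  · rintro ⟨x, ⟨w, rfl⟩, rfl⟩
    obtain ⟨v, hv⟩ := w.2
    refine ⟨v, ?_⟩
    rw [pow_succ, Module.End.mul_apply, hv]
    exact (res_pow_coe f j w).symm
  · rintro ⟨v, rfl⟩
    refine ⟨((res f) ^ j) ⟨f v, mem_range_self f v⟩, mem_range_self _ _, ?_⟩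
    rw [pow_succ, Module.End.mul_apply]
    exact res_pow_coe f j _

theorem rk_res (f : End K V) (j : ℕ) : rk (res f) j = rk f (j + 1) := by
  rw [rk, rk, ← map_range_res_pow]
  exact (Submodule.finrank_map_subtype_eq _ _).symm

theorem lam_res (f : End K V) (j : ℕ) : lam (res f) j = lam f (j + 1) := by
  rw [lam, lam, rk_res, rk_res]

theorem rk_zero (f : End K V) : rk f 0 = finrank K V := by
  rw [rk, pow_zero, Module.End.one_eq_id, range_id, finrank_top]

/-- intertwiners -/
def Hm (f : End K V) (g : End K V') : Submodule K (V →ₗ[K] V') where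
  carrier := {x | g ∘ₗ x = x ∘ₗ f}
  add_mem' := fun {a b} ha hb => by
    simp only [Set.mem_ofPred_eq] at *
    rw [comp_add, add_comp, ha, hb]
  zero_mem' := by simp
  smul_mem' := fun c {a} ha => by
    simp only [Set.mem_ofPred_eq] at *
    rw [comp_smul, smul_comp, ha]

theorem mem_Hm {f : End K V} {g : End K V'} {x : V →ₗ[K] V'} :
    x ∈ Hm f g ↔ ∀ v, g (x v) = x (f v) := by
  constructor
  · intro h v
    exact LinearMap.congr_fun (h : g ∘ₗ x = x ∘ₗ f) v
  · intro h
    exact LinearMap.ext h

/-- restriction to ranges -/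
def rho (f : End K V) (g : End K V') : Hm f g →ₗ[K] Hm (res f) (res g) where
  toFun x := ⟨(x : V →ₗ[K] V').restrict (p := range f) (q := range g) (by
      rintro _ ⟨v, rfl⟩
      rw [← mem_Hm.1 x.2 v]
      exact mem_range_self _ _), by
    rw [mem_Hm]
    intro v
    apply Subtype.ext
    exact mem_Hm.1 x.2 v⟩
  map_add' := fun x y => by ext; rfl
  map_smul' := fun c x => by ext; rfl

theorem rho_coe (f : End K V) (g : End K V') (x : Hm f g) (v : range f) :
    (((rho f g x : range f →ₗ[K] range g) v : range g) : V') = (x : V →ₗ[K] V') v := rfl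

theorem rho_surjective (f : End K V) (g : End K V') : Function.Surjective (rho f g) := by
  intro y
  obtain ⟨C, hC⟩ := Submodule.exists_isCompl (range f)
  -- a linear section of `g : V' → range g`
  obtain ⟨s, hs⟩ := LinearMap.exists_rightInverse_of_surjective g.rangeRestrict
    g.range_rangeRestrict
  have hs' : ∀ w : range g, g (s w) = w := fun w =>
    congrArg Subtype.val (LinearMap.congr_fun hs w)
  -- the map on the complement
  let φ : C →ₗ[K] V' := s ∘ₗ (y : range f →ₗ[K] range g) ∘ₗ f.rangeRestrict ∘ₗ C.subtype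
  let ψ : range f →ₗ[K] V' := (range g).subtype ∘ₗ (y : range f →ₗ[K] range g)
  let x : V →ₗ[K] V' := LinearMap.ofIsCompl hC ψ φ
  have hx1 : ∀ w : range f, x w = (y : range f →ₗ[K] range g) w := fun w =>
    LinearMap.ofIsCompl_apply_left hC w
  have hx2 : ∀ w : C, x w = φ w := fun w => LinearMap.ofIsCompl_apply_right hC w
  have hmem : x ∈ Hm f g := by
    rw [mem_Hm]
    intro v
    have hv : v ∈ range f ⊔ C := by rw [hC.sup_eq_top]; exact Submodule.mem_top
    obtain ⟨a, ha, c, hc, rfl⟩ := Submodule.mem_sup.1 hv
    rw [map_add, map_add, map_add, map_add]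
    congr 1
    · have h1 := hx1 ⟨a, ha⟩
      have h2 := hx1 ⟨f a, mem_range_self f a⟩
      simp only at h1 h2
      rw [h1, h2]
      have h3 := mem_Hm.1 y.2 ⟨a, ha⟩
      exact congrArg Subtype.val h3
    · have h1 := hx2 ⟨c, hc⟩
      have h2 := hx1 ⟨f c, mem_range_self f c⟩
      simp only at h1 h2
      rw [h1, h2]
      exact hs' _
  refine ⟨⟨x, hmem⟩, ?_⟩
  apply Subtype.ext
  ext w
  rw [rho_coe]
  exact hx1 w

/-- the kernel of the restriction map -/
noncomputable def kerEquiv (f : End K V) (g : End K V') :
    LinearMap.ker (rho f g) ≃ₗ[K] ((V ⧸ range f) →ₗ[K] LinearMap.ker g) where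
  toFun x := (range f).liftQ
    (((x : Hm f g) : V →ₗ[K] V').codRestrict (LinearMap.ker g) (fun v => by
      rw [LinearMap.mem_ker, mem_Hm.1 (x : Hm f g).2 v]
      have h := LinearMap.congr_fun (congrArg Subtype.val (LinearMap.mem_ker.1 x.2))
        ⟨f v, mem_range_self f v⟩
      have h' : ((x : Hm f g) : V →ₗ[K] V') (f v) = 0 := congrArg Subtype.val h
      exact h')) (by
      rintro w ⟨v, rfl⟩
      rw [LinearMap.mem_ker]
      have h := LinearMap.congr_fun (congrArg Subtype.val (LinearMap.mem_ker.1 x.2))
        ⟨f v, mem_range_self f v⟩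
      have h' : ((x : Hm f g) : V →ₗ[K] V') (f v) = 0 := congrArg Subtype.val h
      exact Subtype.ext h')
  map_add' := fun x y => by
    ext v
    rfl
  map_smul' := fun c x => by
    ext v
    rfl
  invFun z := ⟨⟨(LinearMap.ker g).subtype ∘ₗ z ∘ₗ (range f).mkQ, by
      rw [mem_Hm]
      intro v
      have h1 : g (((LinearMap.ker g).subtype ∘ₗ z ∘ₗ (range f).mkQ) v) = 0 :=
        LinearMap.mem_ker.1 (z ((range f).mkQ v)).2
      have h2 : (range f).mkQ (f v) = 0 := by
        rw [Submodule.mkQ_apply, Submodule.Quotient.mk_eq_zero]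
        exact mem_range_self f v
      rw [h1, LinearMap.comp_apply, LinearMap.comp_apply, h2, map_zero, map_zero]⟩, by
    rw [LinearMap.mem_ker]
    apply Subtype.ext
    ext w
    rw [rho_coe]
    have h2 : (range f).mkQ w = 0 := by
      rw [Submodule.mkQ_apply, Submodule.Quotient.mk_eq_zero]
      exact w.2
    simp [h2]⟩
  left_inv := fun x => by
    apply Subtype.ext
    apply Subtype.ext
    ext v
    rfl
  right_inv := fun z => by
    ext v
    rfl

variable [FiniteDimensional K V] [FiniteDimensional K V']

theorem finrank_quot_range (f : End K V) : finrank K (V ⧸ range f) = lam f 0 := by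
  have h := Submodule.finrank_quotient_add_finrank (range f)
  rw [lam, rk_zero, zero_add, rk, pow_one]
  omega

theorem finrank_ker' (f : End K V) : finrank K (LinearMap.ker f) = lam f 0 := by
  have h := LinearMap.finrank_range_add_finrank_ker f
  rw [lam, rk_zero, zero_add, rk, pow_one]
  omega

theorem finrank_Hm_step (f : End K V) (g : End K V') :
    finrank K (Hm f g) = lam f 0 * lam g 0 + finrank K (Hm (res f) (res g)) := by
  have h := LinearMap.finrank_range_add_finrank_ker (K := K) (V := Hm f g)
    (V₂ := Hm (res f) (res g)) (rho f g)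
  rw [LinearMap.range_eq_top.2 (rho_surjective f g), finrank_top,
    (kerEquiv f g).finrank_eq, Module.finrank_linearMap, finrank_quot_range, finrank_ker'] at h
  omega

theorem rk_anti (f : End K V) {i j : ℕ} (h : i ≤ j) : rk f j ≤ rk f i := by
  obtain ⟨k, rfl⟩ := Nat.exists_eq_add_of_le h
  rw [rk, rk, pow_add]
  exact Submodule.finrank_mono (LinearMap.range_comp_le_range _ _)

/-- **dimension of the space of intertwiners** -/
theorem finrank_Hm (N : ℕ) (f : End K V) (g : End K V') (hf : rk f N = 0) :
    finrank K (Hm f g) = ∑ j ∈ Finset.range N, lam f j * lam g j := by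
  induction N generalizing V V' with
  | zero =>
    rw [rk_zero] at hf
    have : Subsingleton V := finrank_zero_iff.1 hf
    rw [Finset.range_zero, Finset.sum_empty]
    exact finrank_zero_of_subsingleton
  | succ N ih =>
    rw [finrank_Hm_step, Finset.sum_range_succ', ih (res f) (res g) (by rw [rk_res]; exact hf),
      add_comm]
    congr 1
    refine Finset.sum_congr rfl fun j _ => ?_
    rw [lam_res, lam_res]

end Vale.Agent.P291.H564
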