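import Vale.Agent.P291.HX.HXCore

/-!
# P291, stage HPX, the functional, part A: definitions, the Nullstellensatz fact
-/

set_option linter.unusedSectionVars false

open MvPolynomial Vale.Agent.P291.HX

namespace Vale.Agent.P291.JF

universe uB uP uk

variable {B : Type uB} {P : Type uP} {k : Type uk} [CommRing k] [Fintype B] [DecidableEq B]
  [Fintype P] [DecidableEq P]

variable (G : DA B P k)

/-- edges leaving `U` (inside `B'` and the framing box) -/
def Lv (B' U : Finset B) : Finset P :=
  Finset.univ.filter fun e => (∃ b ∈ U, G.tl e = some b) ∧ G.hd e ∈ Finset.insertNone B' ∧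
    ¬ ∃ b ∈ U, G.hd e = some b

/-- edges into `u` -/
def En (B' : Finset B) (u : B) : Finset P :=
  Finset.univ.filter fun e => G.hd e = some u ∧ G.tl e ∈ Finset.insertNone B' ∧ G.tl e ≠ some u

/-- product of the forms of the edges leaving `U` -/
noncomputable def Y (B' U : Finset B) : MvPolynomial B k := ∏ e ∈ Lv G B' U, G.w e

/-- product of the forms of the edges into `u` -/
noncomputable def In (B' : Finset B) (u : B) : MvPolynomial B k := ∏ e ∈ En G B' u, G.w e

/-- the ideal of the leaving products -/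
noncomputable def I (B' : Finset B) : Ideal (MvPolynomial B k) :=
  Ideal.span {f | ∃ U, U ⊆ B' ∧ U.Nonempty ∧ f = Y G B' U}

/-- positivity -/
def Pos : Prop := ∀ n : P → ℕ, n ≠ 0 → IsUnit (∑ e, n e • G.c e)

variable {G} in
theorem mem_Lv {B' U : Finset B} {e : P} : e ∈ Lv G B' U ↔ (∃ b ∈ U, G.tl e = some b) ∧
    G.hd e ∈ Finset.insertNone B' ∧ ¬ ∃ b ∈ U, G.hd e = some b := by
  rw [Lv, Finset.mem_filter]
  exact and_iff_right (Finset.mem_univ _)

variable {G} in
theorem mem_En {B' : Finset B} {u : B} {e : P} : e ∈ En G B' u ↔ G.hd e = some u ∧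
    G.tl e ∈ Finset.insertNone B' ∧ G.tl e ≠ some u := by
  rw [En, Finset.mem_filter]
  exact and_iff_right (Finset.mem_univ _)

section points

variable {K : Type*} [CommRing K] [IsDomain K]

/-- value at the framing box -/
def zo (z : B → K) : Option B → K := fun o => o.elim 0 z

/-- nonnegative combinations of the constants, with a minus sign -/
def Neg (G : DA B P K) (a : K) : Prop := ∃ n : P → ℕ, a = - ∑ e, n e • G.c e

theorem Neg.zero (G : DA B P K) : Neg G 0 := ⟨0, by simp⟩

theorem Neg.sub {G : DA B P K} {a : K} (h : Neg G a) (e : P) : Neg G (a - G.c e) := by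
  obtain ⟨n, rfl⟩ := h
  refine ⟨n + Pi.single e 1, ?_⟩
  simp only [Pi.add_apply, add_smul, Finset.sum_add_distrib]
  have : ∑ x, (Pi.single e 1 : P → ℕ) x • G.c x = G.c e := by
    rw [Finset.sum_eq_single e]
    · simp
    · intro b _ hb; rw [Pi.single_eq_of_ne hb, zero_smul]
    · intro h; exact absurd (Finset.mem_univ _) h
  rw [this]
  ring

/-- every nonempty `U ⊆ B'` has a vanishing edge leaving it -/
def Van (G : DA B P K) (B' : Finset B) (z : B → K) : Prop :=
  ∀ U, U ⊆ B' → U.Nonempty → ∃ e ∈ Lv G B' U, zo z (G.tl e) - zo z (G.hd e) + G.c e = 0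

theorem Van.neg {G : DA B P K} {B' : Finset B} {z : B → K} (h : Van G B' z) {b : B} (hb : b ∈ B') :
    Neg G (z b) := by
  classical
  by_contra hne
  obtain ⟨e, he, h0⟩ := h (B'.filter fun b => ¬ Neg G (z b)) (Finset.filter_subset _ _)
    ⟨b, Finset.mem_filter.2 ⟨hb, hne⟩⟩
  obtain ⟨⟨a, ha, ht⟩, hh, hn⟩ := mem_Lv.1 he
  rw [Finset.mem_filter] at ha
  apply ha.2
  have h1 : z a = zo z (G.hd e) - G.c e := by
    rw [ht] at h0
    have : zo z (some a) = z a := rfl
    rw [this] at h0
    linear_combination h0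
  rw [h1]
  apply Neg.sub
  rcases ho : G.hd e with _ | b'
  · exact Neg.zero G
  · have hb' : b' ∈ B' := by
      rw [ho] at hh
      exact Finset.mem_insertNone.1 hh b' rfl
    by_contra hne'
    exact hn ⟨b', Finset.mem_filter.2 ⟨hb', hne'⟩, ho⟩

/-- no common zero -/
theorem no_zero (G : DA B P K) (hpos : ∀ n : P → ℕ, n ≠ 0 → ∑ e, n e • G.c e ≠ 0)
    {B' : Finset B} (hB : B'.Nonempty) {z : B → K} (hv : Van G B' z)
    (hin : ∀ u ∈ B', ∃ e ∈ En G B' u, zo z (G.tl e) - zo z (G.hd e) + G.c e = 0) : False := by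
  classical
  let r : B → B → Prop := fun a b => ∃ n : P → ℕ, n ≠ 0 ∧ z b - z a = ∑ e, n e • G.c e
  have hr1 : IsTrans B r := ⟨by
    rintro a b c ⟨n, hn, h1⟩ ⟨m, hm, h2⟩
    refine ⟨n + m, ?_, ?_⟩
    · intro h
      apply hn
      funext e
      have := congrFun h e
      simp only [Pi.add_apply, Pi.zero_apply, Nat.add_eq_zero_iff] at this
      exact this.1
    · simp only [Pi.add_apply, add_smul, Finset.sum_add_distrib]
      rw [← h1, ← h2]
      ring⟩
  have hr2 : Std.Irrefl r := ⟨by
    rintro a ⟨n, hn, h1⟩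
    rw [sub_self] at h1
    exact hpos n hn h1.symm⟩
  have hwf : WellFounded r := Finite.wellFounded_of_trans_of_irrefl r
  obtain ⟨u, hu, hmin⟩ := hwf.has_min {b | b ∈ B'} hB
  obtain ⟨e, he, h0⟩ := hin u hu
  obtain ⟨hh, ht, hne⟩ := mem_En.1 he
  have hsingle : ∀ e : P, (Pi.single e 1 : P → ℕ) ≠ 0 := by
    intro e h
    have := congrFun h e
    simp at this
  have hsum : ∑ x, (Pi.single e 1 : P → ℕ) x • G.c x = G.c e := by
    rw [Finset.sum_eq_single e]
    · simp
    · intro b _ hb; rw [Pi.single_eq_of_ne hb, zero_smul]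
    · intro h; exact absurd (Finset.mem_univ _) h
  rw [hh] at h0
  have hzu : zo z (some u) = z u := rfl
  rw [hzu] at h0
  rcases ho : G.tl e with _ | b'
  · rw [ho] at h0
    obtain ⟨n, hn⟩ := hv.neg hu
    have h1 : ∑ x, (n + Pi.single e 1 : P → ℕ) x • G.c x = 0 := by
      simp only [Pi.add_apply, add_smul, Finset.sum_add_distrib]
      rw [hsum]
      have : zo z none = 0 := rfl
      rw [this] at h0
      linear_combination h0 + hn
    refine hpos _ ?_ h1
    intro h
    have := congrFun h e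
    simp at this
  · have hb' : b' ∈ B' := by
      rw [ho] at ht
      exact Finset.mem_insertNone.1 ht b' rfl
    refine hmin b' hb' ⟨Pi.single e 1, hsingle e, ?_⟩
    rw [hsum]
    rw [ho] at h0
    have : zo z (some b') = z b' := rfl
    rw [this] at h0
    linear_combination -h0

end points

section nul

variable {G}

/-- the ideal of the leaving products and of the entering products -/
noncomputable def IE (G : DA B P k) (B' : Finset B) : Ideal (MvPolynomial B k) :=
  I G B' ⊔ Ideal.span {f | ∃ u ∈ B', f = In G B' u}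

theorem IE_eq_top (hG : Pos G) {B' : Finset B} (hB : B'.Nonempty) : IE G B' = ⊤ := by
  classical
  by_contra hne
  obtain ⟨m, hm, hle⟩ := Ideal.exists_le_maximal _ hne
  have := hm.isPrime
  let π : MvPolynomial B k →+* MvPolynomial B k ⧸ m := Ideal.Quotient.mk m
  let z : B → MvPolynomial B k ⧸ m := fun b => π (X b)
  have hform : ∀ e, π (G.w e) = zo z (G.tl e) - zo z (G.hd e) + π (C (G.c e)) := by
    intro e
    rw [DA.w, map_add, map_sub]
    congr 2
    · rcases G.tl e with _ | b
      · exact map_zero π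
      · rfl
    · rcases G.hd e with _ | b
      · exact map_zero π
      · rfl
  refine no_zero (G.map fun a => π (C a)) ?_ hB (z := z) ?_ ?_
  · intro n hn h
    have h1 := hG n hn
    have h2 : IsUnit (π (C (∑ e, n e • G.c e))) := (h1.map C).map π
    apply h2.ne_zero
    rw [map_sum, map_sum]
    rw [← h]
    refine Finset.sum_congr rfl fun e _ => ?_
    rw [map_nsmul, map_nsmul]
    rfl
  · intro U hU hne
    have h1 : Y G B' U ∈ m := hle (Submodule.mem_sup_left (Ideal.subset_span ⟨U, hU, hne, rfl⟩))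
    obtain ⟨e, he, h2⟩ := (Ideal.IsPrime.prod_mem_iff).1 h1
    refine ⟨e, he, ?_⟩
    have h3 := (Ideal.Quotient.eq_zero_iff_mem).2 h2
    rw [← h3]
    exact (hform e).symm
  · intro u hu
    have h1 : In G B' u ∈ m := hle (Submodule.mem_sup_right (Ideal.subset_span ⟨u, hu, rfl⟩))
    obtain ⟨e, he, h2⟩ := (Ideal.IsPrime.prod_mem_iff).1 h1
    refine ⟨e, he, ?_⟩
    have h3 := (Ideal.Quotient.eq_zero_iff_mem).2 h2
    rw [← h3]
    exact (hform e).symm

/-- decomposition of polynomials -/
theorem decomp (hG : Pos G) {B' : Finset B} (hB : B'.Nonempty) (g : MvPolynomial B k) :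
    ∃ i ∈ I G B', ∃ c : B → MvPolynomial B k, g = i + ∑ u ∈ B', c u * In G B' u := by
  have h1 : (1 : MvPolynomial B k) ∈ IE G B' := by rw [IE_eq_top hG hB]; trivial
  obtain ⟨i, hi, y, hy, h⟩ := Submodule.mem_sup.1 h1
  have h3 : ∃ c : B → MvPolynomial B k, y = ∑ u ∈ B', c u * In G B' u := by
    clear h hi h1
    induction hy using Submodule.span_induction with
    | mem x hx =>
      obtain ⟨u, hu, rfl⟩ := hx
      refine ⟨Pi.single u 1, ?_⟩
      rw [Finset.sum_eq_single u]
      · rw [Pi.single_eq_same, one_mul]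
      · intro b _ hb; rw [Pi.single_eq_of_ne hb, zero_mul]
      · intro h; exact absurd hu h
    | zero => exact ⟨0, by simp⟩
    | add x y _ _ h1 h2 =>
      obtain ⟨c1, h1⟩ := h1
      obtain ⟨c2, h2⟩ := h2
      refine ⟨c1 + c2, ?_⟩
      rw [h1, h2, ← Finset.sum_add_distrib]
      exact Finset.sum_congr rfl fun u _ => by rw [Pi.add_apply]; ring
    | smul a x _ h1 =>
      obtain ⟨c1, h1⟩ := h1
      refine ⟨a • c1, ?_⟩
      rw [h1, smul_eq_mul, Finset.mul_sum]
      exact Finset.sum_congr rfl fun u _ => by rw [Pi.smul_apply, smul_eq_mul]; ring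
  obtain ⟨c, hc⟩ := h3
  refine ⟨g * i, Ideal.mul_mem_left _ _ hi, fun u => g * c u, ?_⟩
  calc g = g * (i + y) := by rw [h, mul_one]
    _ = g * i + ∑ u ∈ B', g * c u * In G B' u := by
      rw [mul_add, hc, Finset.mul_sum]
      congr 1
      exact Finset.sum_congr rfl fun u _ => by ring

end nul

end Vale.Agent.P291.JF
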