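import Mathlib

/-!
# P291, stage HPX, the functional, part B: residue calculus
-/

set_option linter.unusedSectionVars false

open MvPolynomial

namespace Vale.Agent.P291.JF

universe uB uk

variable {B : Type uB} {k : Type uk} [CommRing k] [DecidableEq B]

/-- polynomials as polynomials in `x_u` -/
noncomputable def Psi (u : B) : MvPolynomial B k →ₐ[k] Polynomial (MvPolynomial B k) :=
  aeval (fun v => if v = u then Polynomial.X else Polynomial.C (X v))

/-- substitution of zero for `x_u` -/
noncomputable def eps (u : B) : MvPolynomial B k →ₐ[k] MvPolynomial B k :=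
  aeval (fun v => if v = u then 0 else X v)

/-- polynomials without `x_u` -/
noncomputable def fr (u : B) : Subalgebra k (MvPolynomial B k) :=
  AlgHom.equalizer (eps u) (AlgHom.id k (MvPolynomial B k))

theorem mem_fr {u : B} {f : MvPolynomial B k} : f ∈ fr (k := k) u ↔ eps u f = f := Iff.rfl

theorem Psi_X_self (u : B) : Psi (k := k) u (X u) = Polynomial.X := by
  rw [Psi, aeval_X, if_pos rfl]

theorem Psi_X_ne {u v : B} (h : v ≠ u) : Psi (k := k) u (X v) = Polynomial.C (X v) := by
  rw [Psi, aeval_X, if_neg h]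

theorem eps_X_self (u : B) : eps (k := k) u (X u) = 0 := by
  rw [eps, aeval_X, if_pos rfl]

theorem eps_X_ne {u v : B} (h : v ≠ u) : eps (k := k) u (X v) = X v := by
  rw [eps, aeval_X, if_neg h]

theorem X_mem_fr {u v : B} (h : v ≠ u) : (X v : MvPolynomial B k) ∈ fr (k := k) u :=
  eps_X_ne h

theorem C_mem_fr (u : B) (c : k) : (C c : MvPolynomial B k) ∈ fr (k := k) u :=
  (fr (k := k) u).algebraMap_mem c

theorem eps_mem_fr (u : B) (f : MvPolynomial B k) : eps u f ∈ fr (k := k) u := by
  rw [mem_fr]
  have : (eps (k := k) u).comp (eps u) = eps u := by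
    ext v
    by_cases h : v = u
    · subst h; simp [eps_X_self]
    · simp [eps_X_ne h]
  exact DFunLike.congr_fun this f

theorem Psi_eps (u : B) (f : MvPolynomial B k) : Psi u (eps u f) = Polynomial.C (eps u f) := by
  have : (Psi (k := k) u).comp (eps u) =
      (Polynomial.CAlgHom (R := k) (A := MvPolynomial B k)).comp (eps u) := by
    apply MvPolynomial.algHom_ext
    intro v
    by_cases h : v = u
    · subst h; simp [eps_X_self]
    · rw [AlgHom.comp_apply, AlgHom.comp_apply, eps_X_ne h, Psi_X_ne h]
      rfl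
  exact DFunLike.congr_fun this f

theorem Psi_of_fr {u : B} {f : MvPolynomial B k} (hf : f ∈ fr (k := k) u) :
    Psi u f = Polynomial.C f := by
  have := Psi_eps u f
  rwa [mem_fr.1 hf] at this

theorem Psi_eval (u : B) (f : MvPolynomial B k) : (Psi u f).eval (X u) = f := by
  induction f using MvPolynomial.induction_on with
  | C c =>
    rw [Psi_of_fr (C_mem_fr u c), Polynomial.eval_C]
  | add p q hp hq => rw [map_add, Polynomial.eval_add, hp, hq]
  | mul_X p v hp =>
    rw [map_mul, Polynomial.eval_mul, hp]
    by_cases h : v = u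
    · rw [h, Psi_X_self, Polynomial.eval_X]
    · rw [Psi_X_ne h, Polynomial.eval_C]

/-- compatibility of ring homomorphisms with `Psi` -/
def Comp {B' : Type*} [DecidableEq B'] {k' : Type*} [CommRing k'] (u : B) (u' : B')
    (φ : MvPolynomial B k →+* MvPolynomial B' k') : Prop :=
  ∀ f, Psi u' (φ f) = (Psi u f).map φ

theorem comp_of {B' : Type*} [DecidableEq B'] {k' : Type*} [CommRing k'] {u : B} {u' : B'}
    {φ : MvPolynomial B k →+* MvPolynomial B' k'} (h0 : ∀ c, Psi u' (φ (C c)) = Polynomial.C (φ (C c)))
    (h1 : φ (X u) = X u') (h2 : ∀ v, v ≠ u → Psi u' (φ (X v)) = Polynomial.C (φ (X v))) :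
    Comp u u' φ := by
  intro f
  induction f using MvPolynomial.induction_on with
  | C c =>
    rw [h0, Psi_of_fr (C_mem_fr u c), Polynomial.map_C]
  | add p q hp hq => rw [map_add, map_add, map_add, Polynomial.map_add, hp, hq]
  | mul_X p v hp =>
    rw [map_mul, map_mul, map_mul, Polynomial.map_mul, hp]
    by_cases h : v = u
    · rw [h, h1, Psi_X_self, Psi_X_self, Polynomial.map_X]
    · rw [h2 v h, Psi_X_ne h, Polynomial.map_C]

theorem comp_eps {u v : B} (h : v ≠ u) : Comp (k := k) u u (eps v : _ →ₐ[k] _).toRingHom := by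
  refine comp_of ?_ ?_ ?_
  · intro c
    exact Psi_of_fr (by
      change eps v (C c) ∈ _
      rw [mem_fr.1 (C_mem_fr v c)]
      exact C_mem_fr u c)
  · exact eps_X_ne (Ne.symm h)
  · intro x hx
    change Psi u (eps v (X x)) = Polynomial.C (eps v (X x))
    by_cases hxv : x = v
    · rw [hxv, eps_X_self, map_zero, map_zero]
    · rw [eps_X_ne hxv, Psi_X_ne hx]

theorem Psi_map_eps (u : B) (f : MvPolynomial B k) :
    (Psi u f).map (eps u : _ →ₐ[k] _).toRingHom = Psi u f := by
  induction f using MvPolynomial.induction_on with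
  | C c =>
    rw [Psi_of_fr (C_mem_fr u c), Polynomial.map_C]
    congr 1
    exact C_mem_fr u c
  | add p q hp hq => rw [map_add, Polynomial.map_add, hp, hq]
  | mul_X p v hp =>
    rw [map_mul, Polynomial.map_mul, hp]
    congr 1
    by_cases h : v = u
    · rw [h, Psi_X_self, Polynomial.map_X]
    · rw [Psi_X_ne h, Polynomial.map_C]
      congr 1
      exact eps_X_ne h

/-- residue at infinity of `G / P` with respect to `x_u` -/
noncomputable def res (u : B) (p G : MvPolynomial B k) : MvPolynomial B k :=
  (Psi u G %ₘ Psi u p).coeff ((Psi u p).natDegree - 1)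

theorem res_add (u : B) (p G H : MvPolynomial B k) :
    res u p (G + H) = res u p G + res u p H := by
  rw [res, map_add, Polynomial.add_modByMonic, Polynomial.coeff_add]; rfl

theorem res_zero (u : B) (p : MvPolynomial B k) : res u p 0 = 0 := by
  rw [res, map_zero, Polynomial.zero_modByMonic, Polynomial.coeff_zero]

theorem res_fr_mul {u : B} {g : MvPolynomial B k} (hg : g ∈ fr (k := k) u)
    (p G : MvPolynomial B k) : res u p (g * G) = g * res u p G := by
  rw [res, map_mul, Psi_of_fr hg, ← Polynomial.smul_eq_C_mul, Polynomial.smul_modByMonic,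
    Polynomial.coeff_smul, smul_eq_mul]
  rfl

theorem res_smul (u : B) (p : MvPolynomial B k) (c : k) (G : MvPolynomial B k) :
    res u p (c • G) = c • res u p G := by
  rw [smul_eq_C_mul, res_fr_mul (C_mem_fr u c), smul_eq_C_mul]

/-- the residue as a linear map -/
noncomputable def resL (u : B) (p : MvPolynomial B k) : MvPolynomial B k →ₗ[k] MvPolynomial B k where
  toFun := res u p
  map_add' := res_add u p
  map_smul' := res_smul u p

theorem res_sum (u : B) (p : MvPolynomial B k) {ι : Type*} (s : Finset ι)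
    (f : ι → MvPolynomial B k) : res u p (∑ i ∈ s, f i) = ∑ i ∈ s, res u p (f i) :=
  map_sum (resL u p) f s

theorem res_self_mul {u : B} {p : MvPolynomial B k} (hp : (Psi u p).Monic) (G : MvPolynomial B k) :
    res u p (p * G) = 0 := by
  rw [res, map_mul, mul_comm, Polynomial.mul_self_modByMonic hp, Polynomial.coeff_zero]

theorem res_map {B' : Type*} [DecidableEq B'] {k' : Type*} [CommRing k'] {u : B} {u' : B'}
    {φ : MvPolynomial B k →+* MvPolynomial B' k'} (h : Comp u u' φ) {p : MvPolynomial B k}
    (hp : (Psi u p).Monic) (G : MvPolynomial B k) : res u' (φ p) (φ G) = φ (res u p G) := by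
  rw [res, res, h, h, ← Polynomial.map_modByMonic _ hp, Polynomial.coeff_map]
  by_cases hn : Nontrivial (MvPolynomial B' k')
  · rw [hp.natDegree_map]
  · rw [not_nontrivial_iff_subsingleton] at hn
    exact Subsingleton.elim _ _

theorem res_mem_fr_self {u : B} {p : MvPolynomial B k} (hp : (Psi u p).Monic)
    (G : MvPolynomial B k) : res u p G ∈ fr (k := k) u := by
  rw [mem_fr]
  change (eps u : _ →ₐ[k] _).toRingHom (res u p G) = _
  rw [res, ← Polynomial.coeff_map, Polynomial.map_modByMonic _ hp, Psi_map_eps, Psi_map_eps]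

theorem res_mem_fr {u v : B} (huv : v ≠ u) {p G : MvPolynomial B k} (hp : (Psi u p).Monic)
    (hpv : p ∈ fr (k := k) v) (hG : G ∈ fr (k := k) v) : res u p G ∈ fr (k := k) v := by
  rw [mem_fr]
  have := res_map (comp_eps huv) hp G
  have h1 : (eps v : _ →ₐ[k] _).toRingHom p = p := hpv
  have h2 : (eps v : _ →ₐ[k] _).toRingHom G = G := hG
  rw [h1, h2] at this
  exact this.symm

theorem mod_mul {R : Type*} [CommRing R] {p q : Polynomial R} (hp : p.Monic) (hq : q.Monic)
    (f : Polynomial R) : (f * q) %ₘ (p * q) = (f %ₘ p) * q := by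
  nontriviality R
  have h1 := (Polynomial.div_modByMonic_unique (f /ₘ p) ((f %ₘ p) * q) (hp.mul hq)
    (f := f * q) ⟨?_, ?_⟩).2
  · exact h1
  · have := Polynomial.modByMonic_add_div f p
    linear_combination q * this
  · by_cases h0 : f %ₘ p = 0
    · rw [h0, zero_mul, Polynomial.degree_zero]
      rw [bot_lt_iff_ne_bot]
      intro h
      exact (hp.mul hq).ne_zero (Polynomial.degree_eq_bot.1 h)
    · rw [hq.degree_mul, hq.degree_mul]
      refine WithBot.add_lt_add_right ?_ (Polynomial.degree_modByMonic_lt f hp)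
      intro h
      exact hq.ne_zero (Polynomial.degree_eq_bot.1 h)

theorem res_mul_mul {u : B} {p q : MvPolynomial B k} (hp : (Psi u p).Monic) (hq : (Psi u q).Monic)
    (G : MvPolynomial B k) : res u (p * q) (G * q) = res u p G := by
  nontriviality (MvPolynomial B k)
  rw [res, res, map_mul, map_mul, mod_mul hp hq, hp.natDegree_mul hq]
  by_cases h0 : (Psi u p).natDegree = 0
  · have h1 : Psi u p = 1 := hp.natDegree_eq_zero.1 h0
    rw [h1, Polynomial.modByMonic_one, zero_mul, Polynomial.coeff_zero, Polynomial.coeff_zero]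
  · have h1 : (Psi u p).natDegree + (Psi u q).natDegree - 1 =
        ((Psi u p).natDegree - 1) + (Psi u q).natDegree := by omega
    have h2 : (Psi u G %ₘ Psi u p).natDegree ≤ (Psi u p).natDegree - 1 := by
      have := Polynomial.natDegree_modByMonic_lt (Psi u G) hp (by
        intro h
        rw [h] at h0
        exact h0 Polynomial.natDegree_one)
      omega
    rw [h1, Polynomial.coeff_mul_add_eq_of_natDegree_le h2 le_rfl, Polynomial.coeff_natDegree, hq,
      mul_one]

theorem exists_dec (u : B) (G : MvPolynomial B k) :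
    G ∈ Submodule.span k {f | ∃ (a : ℕ), ∃ g ∈ fr (k := k) u, f = g * X u ^ a} := by
  rw [← Psi_eval u G, Polynomial.eval_eq_sum_range]
  refine Submodule.sum_mem _ fun n _ => Submodule.subset_span ⟨n, _, ?_, rfl⟩
  rw [mem_fr]
  change (eps u : _ →ₐ[k] _).toRingHom _ = _
  rw [← Polynomial.coeff_map, Psi_map_eps]

/-- **residues with respect to two variables commute** -/
theorem res_comm {u v : B} (huv : u ≠ v) {p q : MvPolynomial B k} (hp : (Psi u p).Monic)
    (hq : (Psi v q).Monic) (hpv : p ∈ fr (k := k) v) (hqu : q ∈ fr (k := k) u)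
    (G : MvPolynomial B k) : res v q (res u p G) = res u p (res v q G) := by
  have h1 : ∀ a : ℕ, res u p (X u ^ a) ∈ fr (k := k) v := fun a =>
    res_mem_fr (Ne.symm huv) hp hpv (pow_mem (X_mem_fr huv) a)
  have h2 : ∀ b : ℕ, res v q (X v ^ b) ∈ fr (k := k) u := fun b =>
    res_mem_fr huv hq hqu (pow_mem (X_mem_fr (Ne.symm huv)) b)
  have key : ∀ (a b : ℕ) (g : MvPolynomial B k), g ∈ fr (k := k) u → g ∈ fr (k := k) v →
      res v q (res u p (g * X v ^ b * X u ^ a)) = res u p (res v q (g * X v ^ b * X u ^ a)) := by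
    intro a b g hgu hgv
    have e1 : res u p (g * X v ^ b * X u ^ a) = (g * res u p (X u ^ a)) * X v ^ b := by
      rw [res_fr_mul (mul_mem hgu (pow_mem (X_mem_fr (Ne.symm huv)) b))]
      ring
    have e2 : res v q (g * X v ^ b * X u ^ a) = (g * res v q (X v ^ b)) * X u ^ a := by
      have : g * X v ^ b * X u ^ a = (g * X u ^ a) * X v ^ b := by ring
      rw [this, res_fr_mul (mul_mem hgv (pow_mem (X_mem_fr huv) a))]
      ring
    rw [e1, e2, res_fr_mul (mul_mem hgv (h1 a)), res_fr_mul (mul_mem hgu (h2 b))]
    ring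
  have h3 : G ∈ Submodule.span k {f | ∃ (a b : ℕ), ∃ g, g ∈ fr (k := k) u ∧ g ∈ fr (k := k) v ∧
      f = g * X v ^ b * X u ^ a} := by
    rw [← Psi_eval u G, Polynomial.eval_eq_sum_range]
    refine Submodule.sum_mem _ fun n _ => ?_
    have hc : (Psi u G).coeff n ∈ fr (k := k) u := by
      rw [mem_fr]
      change (eps u : _ →ₐ[k] _).toRingHom _ = _
      rw [← Polynomial.coeff_map, Psi_map_eps]
    generalize (Psi u G).coeff n = c at hc
    rw [← Psi_eval v c, Polynomial.eval_eq_sum_range, Finset.sum_mul]
    refine Submodule.sum_mem _ fun m _ => Submodule.subset_span ⟨n, m, _, ?_, ?_, rfl⟩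
    · rw [mem_fr]
      change (eps u : _ →ₐ[k] _).toRingHom _ = _
      rw [← Polynomial.coeff_map, ← comp_eps huv]
      congr 2
    · rw [mem_fr]
      change (eps v : _ →ₐ[k] _).toRingHom _ = _
      rw [← Polynomial.coeff_map, Psi_map_eps]
  have h4 : ∀ G ∈ Submodule.span k {f | ∃ (a b : ℕ), ∃ g, g ∈ fr (k := k) u ∧ g ∈ fr (k := k) v ∧
      f = g * X v ^ b * X u ^ a}, res v q (res u p G) = res u p (res v q G) := by
    intro G hG
    induction hG using Submodule.span_induction with
    | mem x hx =>
      obtain ⟨a, b, g, hgu, hgv, rfl⟩ := hx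
      exact key a b g hgu hgv
    | zero => simp only [res_zero]
    | add x y _ _ hx hy => simp only [res_add, hx, hy]
    | smul c x _ hx => simp only [res_smul, hx]
  exact h4 G h3

/-- if all the residues of `x_u^m G` lie in an ideal, so does `G` modulo `p` -/
theorem mem_of_res {u : B} {p : MvPolynomial B k} (hp : (Psi u p).Monic)
    (J : Ideal (MvPolynomial B k)) {G : MvPolynomial B k}
    (h : ∀ m : ℕ, res u p (X u ^ m * G) ∈ J) : G ∈ Ideal.span {p} ⊔ J := by
  have hM : ∀ l, (Psi u G %ₘ Psi u p).coeff l ∈ J := by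
    by_cases hJ : J = ⊤
    · intro l; rw [hJ]; trivial
    have : Nontrivial (MvPolynomial B k ⧸ J) := Ideal.Quotient.nontrivial_iff.2 hJ
    have : Nontrivial (MvPolynomial B k) := (Ideal.Quotient.mk J).domain_nontrivial
    set π := Ideal.Quotient.mk J
    set M := (Psi u G %ₘ Psi u p).map π with hMdef
    have hpm : ((Psi u p).map π).Monic := hp.map π
    have hMm : M = (Psi u G).map π %ₘ (Psi u p).map π := Polynomial.map_modByMonic _ hp
    have hM0 : M = 0 := by
      by_contra hne
      have hdeg : M.degree < ((Psi u p).map π).degree := by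
        rw [hMm]; exact Polynomial.degree_modByMonic_lt _ hpm
      have hnat : M.natDegree < ((Psi u p).map π).natDegree :=
        Polynomial.natDegree_lt_natDegree hne hdeg
      have hd : ((Psi u p).map π).natDegree = (Psi u p).natDegree := hp.natDegree_map π
      have h1 := h ((Psi u p).natDegree - 1 - M.natDegree)
      set m := (Psi u p).natDegree - 1 - M.natDegree with hm
      rw [res, map_mul, map_pow, Psi_X_self] at h1
      have h2 : π (((Polynomial.X : Polynomial (MvPolynomial B k)) ^ m * Psi u G %ₘ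
          Psi u p).coeff ((Psi u p).natDegree - 1)) = 0 := Ideal.Quotient.eq_zero_iff_mem.2 h1
      rw [← Polynomial.coeff_map, Polynomial.map_modByMonic _ hp, Polynomial.map_mul,
        Polynomial.map_pow, Polynomial.map_X] at h2
      have h3 : (Polynomial.X ^ m * (Psi u G).map π) %ₘ (Psi u p).map π = Polynomial.X ^ m * M := by
        have e1 : (Psi u G).map π = M + (Psi u p).map π * ((Psi u G).map π /ₘ (Psi u p).map π) := by
          rw [hMm, Polynomial.modByMonic_add_div]
        rw [e1, mul_add, Polynomial.add_modByMonic]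
        have e2 : Polynomial.X ^ m * ((Psi u p).map π * ((Psi u G).map π /ₘ (Psi u p).map π)) =
            (Polynomial.X ^ m * ((Psi u G).map π /ₘ (Psi u p).map π)) * (Psi u p).map π := by ring
        rw [e2, Polynomial.mul_self_modByMonic hpm, add_zero,
          (Polynomial.modByMonic_eq_self_iff hpm).2]
        refine Polynomial.degree_lt_degree ?_
        refine lt_of_le_of_lt (Polynomial.natDegree_mul_le) ?_
        rw [Polynomial.natDegree_X_pow]
        omega
      rw [h3] at h2
      have h4 : (Psi u p).natDegree - 1 = M.natDegree + m := by omega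
      rw [h4, Polynomial.coeff_X_pow_mul] at h2
      exact hne (Polynomial.leadingCoeff_eq_zero.1 h2)
    intro l
    rw [← Ideal.Quotient.eq_zero_iff_mem, ← Polynomial.coeff_map]
    change M.coeff l = 0
    rw [hM0, Polynomial.coeff_zero]
  have h1 : G = p * (Psi u G /ₘ Psi u p).eval (X u) +
      ∑ l ∈ Finset.range ((Psi u G %ₘ Psi u p).natDegree + 1),
        (Psi u G %ₘ Psi u p).coeff l * X u ^ l := by
    rw [← Polynomial.eval_eq_sum_range]
    have := congrArg (Polynomial.eval (X u)) (Polynomial.modByMonic_add_div (Psi u G) (Psi u p))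
    rw [Polynomial.eval_add, Polynomial.eval_mul, Psi_eval, Psi_eval, add_comm] at this
    exact this.symm
  rw [h1]
  exact Submodule.add_mem_sup (Ideal.mul_mem_right _ _ (Ideal.mem_span_singleton_self p))
    (J.sum_mem fun l _ => J.mul_mem_right _ (hM l))

end Vale.Agent.P291.JF
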