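import Vale.Agent.P291.H564.JA
import Vale.Agent.P291.H564.JB

/-!
# P291, stage HPX, the functional, part C: existence
-/

set_option linter.unusedSectionVars false

open MvPolynomial Vale.Agent.P291.HX

namespace Vale.Agent.P291.JF

universe uB uP uk

variable {B : Type uB} {P : Type uP} {k : Type uk} [CommRing k] [Fintype B] [DecidableEq B]
  [Fintype P] [DecidableEq P] (A : DA B P k)

section forms

variable {A}

theorem xo_mem_fr {u : B} {o : Option B} (h : o ≠ some u) : xo k o ∈ fr (k := k) u := by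
  rcases o with _ | v
  · exact zero_mem _
  · exact X_mem_fr fun h' => h (congrArg some h')

theorem w_mem_fr {u : B} {e : P} (h1 : A.tl e ≠ some u) (h2 : A.hd e ≠ some u) :
    A.w e ∈ fr (k := k) u :=
  add_mem (sub_mem (xo_mem_fr h1) (xo_mem_fr h2)) (C_mem_fr u _)

theorem Psi_w {u : B} {e : P} (h1 : A.tl e = some u) (h2 : A.hd e ≠ some u) :
    Psi u (A.w e) = Polynomial.X + Polynomial.C (C (A.c e) - xo k (A.hd e)) := by
  rw [DA.w, h1]
  have h3 : xo k (some u) = (X u : MvPolynomial B k) := rfl
  rw [h3, map_add, map_sub, Psi_X_self, Psi_of_fr (xo_mem_fr h2), Psi_of_fr (C_mem_fr u _),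
    Polynomial.C_sub]
  ring

theorem monic_prod {u : B} (s : Finset P) (hs : ∀ e ∈ s, A.tl e = some u ∧ A.hd e ≠ some u) :
    (Psi u (∏ e ∈ s, A.w e)).Monic := by
  rw [map_prod]
  refine Polynomial.monic_prod_of_monic _ _ fun e he => ?_
  rw [Psi_w (hs e he).1 (hs e he).2]
  exact Polynomial.monic_X_add_C _

theorem mem_Lv_single {B' : Finset B} {u : B} {e : P} : e ∈ Lv A B' {u} ↔ A.tl e = some u ∧
    A.hd e ∈ Finset.insertNone B' ∧ A.hd e ≠ some u := by
  rw [mem_Lv]
  simp

theorem monic_Y (B' : Finset B) (u : B) : (Psi u (Y A B' {u})).Monic :=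
  monic_prod _ fun _ he => ⟨(mem_Lv_single.1 he).1, (mem_Lv_single.1 he).2.2⟩

variable (A) in
/-- edges from `u` to `v` -/
def Bt (u v : B) : Finset P := Finset.univ.filter fun e => A.tl e = some u ∧ A.hd e = some v

theorem mem_Bt {u v : B} {e : P} : e ∈ Bt A u v ↔ A.tl e = some u ∧ A.hd e = some v := by
  rw [Bt, Finset.mem_filter]
  exact and_iff_right (Finset.mem_univ _)

theorem mem_insertNone_erase {B' : Finset B} {v : B} {o : Option B} :
    o ∈ Finset.insertNone (B'.erase v) ↔ o ∈ Finset.insertNone B' ∧ o ≠ some v := by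
  rcases o with _ | b
  · simp
  · simp [and_comm]

theorem Y_split {B' : Finset B} {u v : B} (huv : u ≠ v) (hv : v ∈ B') :
    Y A B' {u} = Y A (B'.erase v) {u} * ∏ e ∈ Bt A u v, A.w e := by
  rw [Y, Y, ← Finset.prod_union]
  · refine Finset.prod_congr ?_ fun _ _ => rfl
    ext e
    rw [Finset.mem_union, mem_Lv_single, mem_Lv_single, mem_Bt, mem_insertNone_erase]
    constructor
    · rintro ⟨h1, h2, h3⟩
      by_cases h : A.hd e = some v
      · exact Or.inr ⟨h1, h⟩
      · exact Or.inl ⟨h1, ⟨h2, h⟩, h3⟩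
    · rintro (⟨h1, ⟨h2, _⟩, h3⟩ | ⟨h1, h2⟩)
      · exact ⟨h1, h2, h3⟩
      · refine ⟨h1, ?_, ?_⟩
        · rw [h2]; exact Finset.some_mem_insertNone.2 hv
        · rw [h2]; exact fun h => huv (Option.some_injective _ h).symm
  · rw [Finset.disjoint_left]
    intro e h1 h2
    rw [mem_Lv_single, mem_insertNone_erase] at h1
    exact h1.2.1.2 (mem_Bt.1 h2).2

theorem In_split {B' : Finset B} {u v : B} (huv : u ≠ v) (hu : u ∈ B') :
    In A B' v = In A (B'.erase u) v * ∏ e ∈ Bt A u v, A.w e := by
  rw [In, In, ← Finset.prod_union]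
  · refine Finset.prod_congr ?_ fun _ _ => rfl
    ext e
    rw [Finset.mem_union, mem_En, mem_En, mem_Bt, mem_insertNone_erase]
    constructor
    · rintro ⟨h1, h2, h3⟩
      by_cases h : A.tl e = some u
      · exact Or.inr ⟨h, h1⟩
      · exact Or.inl ⟨h1, ⟨h2, h⟩, h3⟩
    · rintro (⟨h1, ⟨h2, _⟩, h3⟩ | ⟨h1, h2⟩)
      · exact ⟨h1, h2, h3⟩
      · refine ⟨h2, ?_, ?_⟩
        · rw [h1]; exact Finset.some_mem_insertNone.2 hu
        · rw [h1]; exact fun h => huv (Option.some_injective _ h)
  · rw [Finset.disjoint_left]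
    intro e h1 h2
    rw [mem_En, mem_insertNone_erase] at h1
    exact h1.2.1.2 (mem_Bt.1 h2).1

theorem Y_mem_fr {B' U : Finset B} {u : B} (hU : u ∉ U) : Y A (B'.erase u) U ∈ fr (k := k) u := by
  refine prod_mem fun e he => ?_
  obtain ⟨⟨b, hb, h1⟩, h2, _⟩ := mem_Lv.1 he
  refine w_mem_fr ?_ (mem_insertNone_erase.1 h2).2
  rw [h1]
  rintro h
  exact hU (Option.some_injective _ h ▸ hb)

theorem In_mem_fr {B' : Finset B} {u v : B} (huv : v ≠ u) :
    In A (B'.erase u) v ∈ fr (k := k) u := by
  refine prod_mem fun e he => ?_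
  obtain ⟨h1, h2, _⟩ := mem_En.1 he
  refine w_mem_fr (mem_insertNone_erase.1 h2).2 ?_
  rw [h1]
  exact fun h => huv (Option.some_injective _ h)

theorem Y_dvd {B' U : Finset B} {u : B} : Y A (B'.erase u) (U.erase u) ∣ Y A B' U := by
  refine Finset.prod_dvd_prod_of_subset _ _ _ ?_
  intro e he
  obtain ⟨⟨b, hb, h1⟩, h2, h3⟩ := mem_Lv.1 he
  rw [mem_insertNone_erase] at h2
  refine mem_Lv.2 ⟨⟨b, Finset.mem_of_mem_erase hb, h1⟩, h2.1, ?_⟩
  rintro ⟨b', hb', h4⟩
  exact h3 ⟨b', Finset.mem_erase.2 ⟨fun h => h2.2 (h ▸ h4), hb'⟩, h4⟩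

/-- residues map the ideal of `B'` to the ideal of `B' - u` -/
theorem res_mem_I {B' : Finset B} {u : B} {g : MvPolynomial B k} (hg : g ∈ I A B') :
    res u (Y A B' {u}) g ∈ I A (B'.erase u) := by
  have key : ∀ (U : Finset B) (a : MvPolynomial B k), U ⊆ B' → U.Nonempty →
      res u (Y A B' {u}) (a * Y A B' U) ∈ I A (B'.erase u) := by
    intro U a hU hne
    by_cases hUu : U = {u}
    · rw [hUu, mul_comm, res_self_mul (monic_Y B' u)]
      exact zero_mem _
    · obtain ⟨q, hq⟩ := Y_dvd (A := A) (B' := B') (U := U) (u := u)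
      rw [hq]
      have h1 : a * (Y A (B'.erase u) (U.erase u) * q) =
          Y A (B'.erase u) (U.erase u) * (a * q) := by ring
      rw [h1, res_fr_mul (Y_mem_fr (Finset.notMem_erase u U))]
      refine Ideal.mul_mem_right _ _ (Ideal.subset_span ⟨U.erase u,
        Finset.erase_subset_erase u hU, ?_, rfl⟩)
      by_contra hemp
      rw [Finset.not_nonempty_iff_eq_empty] at hemp
      obtain ⟨b, hb⟩ := hne
      have hsub : U ⊆ {u} := by
        intro x hx
        by_contra hxu
        have : x ∈ U.erase u := Finset.mem_erase.2 ⟨fun h => hxu (Finset.mem_singleton.2 h), hx⟩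
        rw [hemp] at this
        exact absurd this (Finset.notMem_empty x)
      rcases Finset.subset_singleton_iff.1 hsub with h | h
      · rw [h] at hb; exact absurd hb (Finset.notMem_empty b)
      · exact hUu h
  have h2 : ∀ a : MvPolynomial B k, res u (Y A B' {u}) (a * g) ∈ I A (B'.erase u) := by
    unfold I at hg
    induction hg using Submodule.span_induction with
    | mem x hx =>
      obtain ⟨U, hU, hne, rfl⟩ := hx
      exact fun a => key U a hU hne
    | zero => intro a; rw [mul_zero, res_zero]; exact zero_mem _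
    | add x y _ _ hx hy =>
      intro a
      rw [mul_add, res_add]
      exact add_mem (hx a) (hy a)
    | smul c x _ hx =>
      intro a
      rw [smul_eq_mul, ← mul_assoc]
      exact hx (a * c)
  have := h2 1
  rwa [one_mul] at this

end forms

section functional

variable {A}

/-- coefficients of the unit relation -/
noncomputable def cc (hA : Pos A) (s : Finset B) : B → MvPolynomial B k :=
  if hs : s.Nonempty then (decomp hA hs 1).choose_spec.2.choose else 0

theorem cc_spec (hA : Pos A) {s : Finset B} (hs : s.Nonempty) :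
    ∃ i ∈ I A s, (1 : MvPolynomial B k) = i + ∑ u ∈ s, cc hA s u * In A s u := by
  refine ⟨(decomp hA hs 1).choose, (decomp hA hs 1).choose_spec.1, ?_⟩
  have := (decomp hA hs 1).choose_spec.2.choose_spec
  rw [cc, dif_pos hs]
  exact this

/-- the functionals -/
noncomputable def jj (hA : Pos A) (s : Finset B) : MvPolynomial B k →ₗ[k] k :=
  Finset.strongInduction (p := fun _ => MvPolynomial B k →ₗ[k] k)
    (fun s ih => if s.Nonempty then ∑ u : {x // x ∈ s},
        (ih (s.erase u.1) (Finset.erase_ssubset u.2)).comp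
          ((resL u.1 (Y A s {u.1})).comp (LinearMap.mulLeft k (cc hA s u.1)))
      else (aeval (fun _ => 0) : MvPolynomial B k →ₐ[k] k).toLinearMap) s

theorem jj_empty (hA : Pos A) (g : MvPolynomial B k) :
    jj hA ∅ g = aeval (fun _ => (0 : k)) g := by
  rw [jj, Finset.strongInduction_eq, if_neg (by simp)]
  rfl

theorem jj_eq (hA : Pos A) {s : Finset B} (hs : s.Nonempty) (g : MvPolynomial B k) :
    jj hA s g = ∑ u ∈ s, jj hA (s.erase u) (res u (Y A s {u}) (cc hA s u * g)) := by
  rw [jj, Finset.strongInduction_eq, if_pos hs, LinearMap.sum_apply]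
  exact Finset.sum_coe_sort s
    (fun u => jj hA (s.erase u) (res u (Y A s {u}) (cc hA s u * g)))

theorem jj_X (hA : Pos A) (s : Finset B) : ∀ b, b ∉ s → ∀ g : MvPolynomial B k,
    jj hA s (X b * g) = 0 := by
  induction s using Finset.strongInduction with
  | _ s ih =>
    intro b hb g
    rcases s.eq_empty_or_nonempty with rfl | hs
    · rw [jj_empty, map_mul, aeval_X, zero_mul]
    · rw [jj_eq hA hs]
      refine Finset.sum_eq_zero fun u hu => ?_
      have h1 : cc hA s u * (X b * g) = X b * (cc hA s u * g) := by ring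
      have hbu : b ≠ u := fun h => hb (by rw [h]; exact hu)
      rw [h1, res_fr_mul (X_mem_fr hbu)]
      exact ih _ (Finset.erase_ssubset hu) b (fun h => hb (Finset.mem_of_mem_erase h)) _

theorem jj_kill (hA : Pos A) (s : Finset B) : ∀ g ∈ I A s, jj hA s g = 0 := by
  induction s using Finset.strongInduction with
  | _ s ih =>
    intro g hg
    rcases s.eq_empty_or_nonempty with rfl | hs
    · have h1 : I A (∅ : Finset B) = ⊥ := by
        rw [I, Ideal.span_eq_bot]
        rintro f ⟨U, hU, hne, _⟩
        rw [Finset.subset_empty.1 hU] at hne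
        exact absurd hne (by simp)
      rw [h1, Ideal.mem_bot] at hg
      rw [hg, map_zero]
    · rw [jj_eq hA hs]
      refine Finset.sum_eq_zero fun u hu => ih _ (Finset.erase_ssubset hu) _ ?_
      exact res_mem_I (Ideal.mul_mem_left _ _ hg)

theorem res_In {s : Finset B} {u v : B} (huv : u ≠ v) (hu : u ∈ s) (hv : v ∈ s)
    (H : MvPolynomial B k) : res u (Y A s {u}) (H * In A s v) =
      In A (s.erase u) v * res u (Y A (s.erase v) {u}) H := by
  have hmon : (Psi u (∏ e ∈ Bt A u v, A.w e)).Monic :=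
    monic_prod (A := A) (u := u) (Bt A u v) fun e he => ⟨(mem_Bt.1 he).1, by
      rw [(mem_Bt.1 he).2]; exact fun h => huv (Option.some_injective _ h).symm⟩
  have a1 := res_mul_mul (monic_Y (A := A) (s.erase v) u) hmon (In A (s.erase u) v * H)
  rw [← Y_split huv hv] at a1
  have a2 : In A (s.erase u) v * H * ∏ e ∈ Bt A u v, A.w e = H * In A s v := by
    rw [In_split huv hu]; ring
  rw [a2, res_fr_mul (In_mem_fr (Ne.symm huv))] at a1
  exact a1

theorem jj_step (hA : Pos A) (s : Finset B) : ∀ v ∈ s, ∀ g : MvPolynomial B k,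
    jj hA s (g * In A s v) = jj hA (s.erase v) (res v (Y A s {v}) g) := by
  induction s using Finset.strongInduction with
  | _ s ih =>
    intro v hv g
    have hs : s.Nonempty := ⟨v, hv⟩
    have star : ∀ u v : B, u ∈ s → v ∈ s → u ≠ v → ∀ H : MvPolynomial B k,
        jj hA (s.erase u) (res u (Y A s {u}) (H * In A s v)) =
          jj hA ((s.erase u).erase v) (res v (Y A (s.erase u) {v})
            (res u (Y A (s.erase v) {u}) H)) := by
      intro u v hu hv huv H
      have e1 := ih (s.erase u) (Finset.erase_ssubset hu) v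
        (Finset.mem_erase.2 ⟨Ne.symm huv, hv⟩) (res u (Y A (s.erase v) {u}) H)
      rw [res_In huv hu hv, mul_comm (In A (s.erase u) v) (res u (Y A (s.erase v) {u}) H)]
      exact e1
    have h1 : ∀ u ∈ s, jj hA (s.erase u) (res u (Y A s {u}) (cc hA s u * (g * In A s v))) =
        jj hA (s.erase v) (res v (Y A s {v}) (g * (cc hA s u * In A s u))) := by
      intro u hu
      by_cases huv : u = v
      · subst huv
        have e0 : cc hA s u * (g * In A s u) = g * (cc hA s u * In A s u) := by ring
        rw [e0]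
      · have e1 : cc hA s u * (g * In A s v) = (cc hA s u * g) * In A s v := by ring
        have e2 : g * (cc hA s u * In A s u) = (cc hA s u * g) * In A s u := by ring
        rw [e1, e2, star u v hu hv huv, star v u hv hu (Ne.symm huv), Finset.erase_right_comm,
          res_comm huv (monic_Y _ u) (monic_Y _ v)
            (Y_mem_fr fun h => huv (Finset.mem_singleton.1 h).symm)
            (Y_mem_fr fun h => huv (Finset.mem_singleton.1 h))]
    rw [jj_eq hA hs, Finset.sum_congr rfl h1, ← map_sum, ← res_sum, ← Finset.mul_sum]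
    obtain ⟨i, hi, h2⟩ := cc_spec hA hs
    have h3 : ∑ u ∈ s, cc hA s u * In A s u = 1 - i := by rw [h2]; ring
    have h4 : g * (1 - i) = g + (-g) * i := by ring
    rw [h3, h4, res_add, map_add,
      jj_kill hA (s.erase v) _ (res_mem_I (Ideal.mul_mem_left _ _ hi)), add_zero]

end functional

end Vale.Agent.P291.JF
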