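import Vale.Agent.P291.H564.JC

/-!
# P291, stage HPX, the functional, part D: uniqueness, symmetry, nondegeneracy
-/

set_option linter.unusedSectionVars false

open MvPolynomial Vale.Agent.P291.HX

namespace Vale.Agent.P291.JF

universe uB uP uk

variable {B : Type uB} {P : Type uP} {k : Type uk} [CommRing k] [Fintype B] [DecidableEq B]
  [Fintype P] [DecidableEq P] {A : DA B P k}

/-- families of functionals -/
structure Fam (A : DA B P k) (j : Finset B → MvPolynomial B k →ₗ[k] k) : Prop where
  emp : ∀ g, j ∅ g = aeval (fun _ => (0 : k)) g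
  kill : ∀ s, ∀ g ∈ I A s, j s g = 0
  step : ∀ s, ∀ v ∈ s, ∀ g, j s (g * In A s v) = j (s.erase v) (res v (Y A s {v}) g)

theorem fam_jj (hA : Pos A) : Fam A (jj hA) :=
  ⟨jj_empty hA, jj_kill hA, jj_step hA⟩

/-- uniqueness -/
theorem Fam.eq (hA : Pos A) {j j' : Finset B → MvPolynomial B k →ₗ[k] k} (h : Fam A j)
    (h' : Fam A j') (s : Finset B) : j s = j' s := by
  induction s using Finset.strongInduction with
  | _ s ih =>
    apply LinearMap.ext
    intro g
    rcases s.eq_empty_or_nonempty with rfl | hs
    · rw [h.emp, h'.emp]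
    · obtain ⟨i, hi, c, hc⟩ := decomp hA hs g
      rw [hc, map_add, map_add, h.kill s i hi, h'.kill s i hi, map_sum, map_sum]
      congr 1
      refine Finset.sum_congr rfl fun u hu => ?_
      rw [h.step s u hu, h'.step s u hu, ih _ (Finset.erase_ssubset hu)]

section symmetry

variable (σ : Equiv.Perm B) (τ : Equiv.Perm P)

theorem rename_w (htl : ∀ e, A.tl (τ e) = (A.tl e).map σ) (hhd : ∀ e, A.hd (τ e) = (A.hd e).map σ)
    (hc : ∀ e, A.c (τ e) = A.c e) (e : P) : rename σ (A.w e) = A.w (τ e) := by
  rw [DA.w, DA.w, htl, hhd, hc, map_add, map_sub, rename_C]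
  congr 2
  · rcases A.tl e with _ | b
    · exact map_zero _
    · exact rename_X _ _
  · rcases A.hd e with _ | b
    · exact map_zero _
    · exact rename_X _ _

theorem map_eq_some {o : Option B} {b : B} : o.map σ = some (σ b) ↔ o = some b := by
  rcases o with _ | x
  · simp
  · simp

theorem mem_insertNone_map {s : Finset B} {o : Option B} :
    o.map σ ∈ Finset.insertNone (s.map σ.toEmbedding) ↔ o ∈ Finset.insertNone s := by
  rcases o with _ | x
  · simp
  · simp

variable {σ τ}

theorem rename_Y (htl : ∀ e, A.tl (τ e) = (A.tl e).map σ) (hhd : ∀ e, A.hd (τ e) = (A.hd e).map σ)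
    (hc : ∀ e, A.c (τ e) = A.c e) (s U : Finset B) :
    rename σ (Y A s U) = Y A (s.map σ.toEmbedding) (U.map σ.toEmbedding) := by
  rw [Y, Y, map_prod]
  have h1 : Lv A (s.map σ.toEmbedding) (U.map σ.toEmbedding) = (Lv A s U).map τ.toEmbedding := by
    ext e
    obtain ⟨e, rfl⟩ := τ.surjective e
    rw [Finset.mem_map_equiv, Equiv.symm_apply_apply, mem_Lv, mem_Lv, htl, hhd,
      mem_insertNone_map]
    have h2 : ∀ o : Option B, (∃ b ∈ U.map σ.toEmbedding, o.map σ = some b) ↔
        ∃ b ∈ U, o = some b := by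
      intro o
      constructor
      · rintro ⟨b, hb, h⟩
        obtain ⟨b, hb', rfl⟩ := Finset.mem_map.1 hb
        exact ⟨b, hb', (map_eq_some σ).1 h⟩
      · rintro ⟨b, hb, h⟩
        exact ⟨σ b, Finset.mem_map.2 ⟨b, hb, rfl⟩, (map_eq_some σ).2 h⟩
    rw [h2, h2]
  rw [h1, Finset.prod_map]
  exact Finset.prod_congr rfl fun e _ => rename_w σ τ htl hhd hc e

theorem rename_In (htl : ∀ e, A.tl (τ e) = (A.tl e).map σ) (hhd : ∀ e, A.hd (τ e) = (A.hd e).map σ)
    (hc : ∀ e, A.c (τ e) = A.c e) (s : Finset B) (u : B) :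
    rename σ (In A s u) = In A (s.map σ.toEmbedding) (σ u) := by
  rw [In, In, map_prod]
  have h1 : En A (s.map σ.toEmbedding) (σ u) = (En A s u).map τ.toEmbedding := by
    ext e
    obtain ⟨e, rfl⟩ := τ.surjective e
    rw [Finset.mem_map_equiv, Equiv.symm_apply_apply, mem_En, mem_En, htl, hhd,
      mem_insertNone_map, Ne, map_eq_some, map_eq_some]
  rw [h1, Finset.prod_map]
  exact Finset.prod_congr rfl fun e _ => rename_w σ τ htl hhd hc e

theorem rename_I (htl : ∀ e, A.tl (τ e) = (A.tl e).map σ) (hhd : ∀ e, A.hd (τ e) = (A.hd e).map σ)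
    (hc : ∀ e, A.c (τ e) = A.c e) {s : Finset B} {g : MvPolynomial B k} (hg : g ∈ I A s) :
    rename σ g ∈ I A (s.map σ.toEmbedding) := by
  have h1 : I A s ≤ (I A (s.map σ.toEmbedding)).comap (rename (R := k) σ) := by
    refine Ideal.span_le.2 ?_
    rintro f ⟨U, hU, hne, rfl⟩
    rw [SetLike.mem_coe, Ideal.mem_comap, rename_Y htl hhd hc]
    exact Ideal.subset_span ⟨_, Finset.map_subset_map.2 hU, hne.map, rfl⟩
  exact h1 hg

theorem comp_rename (u : B) : Comp (k := k) u (σ u) (rename σ : _ →ₐ[k] _).toRingHom := by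
  refine comp_of ?_ ?_ ?_
  · intro c
    change Psi (σ u) (rename σ (C c)) = Polynomial.C (rename σ (C c))
    rw [rename_C]
    exact Psi_of_fr (C_mem_fr _ c)
  · exact rename_X _ _
  · intro v hv
    change Psi (σ u) (rename σ (X v)) = Polynomial.C (rename σ (X v))
    rw [rename_X]
    exact Psi_X_ne fun h => hv (σ.injective h)

/-- **symmetry** -/
theorem jj_symm (hA : Pos A) (htl : ∀ e, A.tl (τ e) = (A.tl e).map σ)
    (hhd : ∀ e, A.hd (τ e) = (A.hd e).map σ) (hc : ∀ e, A.c (τ e) = A.c e) (s : Finset B)
    (g : MvPolynomial B k) : jj hA (s.map σ.toEmbedding) (rename σ g) = jj hA s g := by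
  have h1 : Fam A (fun s => (jj hA (s.map σ.toEmbedding)).comp
      (rename (R := k) σ).toLinearMap) := by
    refine ⟨?_, ?_, ?_⟩
    · intro g
      change jj hA (Finset.map σ.toEmbedding ∅) (rename σ g) = _
      rw [Finset.map_empty, jj_empty, aeval_rename]
      rfl
    · intro s g hg
      exact jj_kill hA _ _ (rename_I htl hhd hc hg)
    · intro s v hv g
      change jj hA (s.map σ.toEmbedding) (rename σ (g * In A s v)) =
        jj hA ((s.erase v).map σ.toEmbedding) (rename σ (res v (Y A s {v}) g))
      rw [map_mul, rename_In htl hhd hc,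
        jj_step hA _ (σ v) (Finset.mem_map.2 ⟨v, hv, rfl⟩)]
      have e1 := res_map (comp_rename (k := k) (σ := σ) v) (monic_Y (A := A) s v) g
      have e2 : (rename σ : _ →ₐ[k] _).toRingHom (Y A s {v}) =
          Y A (s.map σ.toEmbedding) {σ v} := by
        have := rename_Y htl hhd hc s {v}
        rw [Finset.map_singleton] at this
        exact this
      rw [e2] at e1
      have e3 : (s.map σ.toEmbedding).erase (σ v) = (s.erase v).map σ.toEmbedding := by
        rw [Finset.map_erase]
        rfl
      rw [e3]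
      exact congrArg _ e1
  exact (LinearMap.congr_fun (Fam.eq hA (fam_jj hA) h1 s) g).symm

end symmetry

section nondeg

/-- the ideal with the inactive variables -/
noncomputable def I' (A : DA B P k) (s : Finset B) : Ideal (MvPolynomial B k) :=
  I A s ⊔ Ideal.span {f | ∃ b, b ∉ s ∧ f = X b}

theorem sub_eps_mem (u : B) (g : MvPolynomial B k) : g - eps u g ∈ Ideal.span {(X u : MvPolynomial B k)} := by
  induction g using MvPolynomial.induction_on with
  | C c =>
    rw [mem_fr.1 (C_mem_fr u c), sub_self]
    exact zero_mem _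
  | add p q hp hq =>
    rw [map_add]
    have : p + q - (eps u p + eps u q) = (p - eps u p) + (q - eps u q) := by ring
    rw [this]
    exact add_mem hp hq
  | mul_X p v hp =>
    rw [map_mul]
    by_cases h : v = u
    · subst h
      rw [eps_X_self, mul_zero, sub_zero]
      exact Ideal.mul_mem_left _ _ (Ideal.mem_span_singleton_self _)
    · rw [eps_X_ne h, ← sub_mul]
      exact Ideal.mul_mem_right _ _ hp

theorem In_mul_Y {s U : Finset B} {u : B} (hU : U ⊆ s.erase u) (hne : U.Nonempty) :
    In A s u * Y A (s.erase u) U ∈ I A s := by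
  have h1 : Y A s U ∣ In A s u * Y A (s.erase u) U := by
    rw [In, Y, Y, ← Finset.prod_union]
    · refine Finset.prod_dvd_prod_of_subset _ _ _ ?_
      intro e he
      obtain ⟨⟨b, hb, h1⟩, h2, h3⟩ := mem_Lv.1 he
      have hbs := Finset.mem_erase.1 (hU hb)
      rw [Finset.mem_union]
      by_cases h : A.hd e = some u
      · left
        refine mem_En.2 ⟨h, ?_, ?_⟩
        · rw [h1]; exact Finset.some_mem_insertNone.2 hbs.2
        · rw [h1]; exact fun h => hbs.1 (Option.some_injective _ h)
      · right
        exact mem_Lv.2 ⟨⟨b, hb, h1⟩, mem_insertNone_erase.2 ⟨h2, h⟩, h3⟩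
    · rw [Finset.disjoint_left]
      intro e h1 h2
      exact (mem_insertNone_erase.1 (mem_Lv.1 h2).2.1).2 (mem_En.1 h1).1
  obtain ⟨q, hq⟩ := h1
  rw [hq]
  exact Ideal.mul_mem_right _ _ (Ideal.subset_span
    ⟨U, hU.trans (Finset.erase_subset _ _), hne, rfl⟩)

theorem eps_I {s : Finset B} {u : B} {g : MvPolynomial B k}
    (hg : g ∈ I' A (s.erase u)) (hgu : g ∈ fr (k := k) u) :
    g ∈ I A (s.erase u) ⊔ Ideal.span {f | ∃ b, b ∉ s ∧ f = X b} := by
  have h1 : I' A (s.erase u) ≤ (I A (s.erase u) ⊔ Ideal.span {f | ∃ b, b ∉ s ∧ f = X b}).comap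
      (eps (k := k) u) := by
    refine sup_le (Ideal.span_le.2 ?_) (Ideal.span_le.2 ?_)
    · rintro f ⟨U, hU, hne, rfl⟩
      rw [SetLike.mem_coe, Ideal.mem_comap]
      have h2 : Y A (s.erase u) U ∈ fr (k := k) u :=
        Y_mem_fr fun h => (Finset.mem_erase.1 (hU h)).1 rfl
      rw [mem_fr.1 h2]
      exact Submodule.mem_sup_left (Ideal.subset_span ⟨U, hU, hne, rfl⟩)
    · rintro f ⟨b, hb, rfl⟩
      rw [SetLike.mem_coe, Ideal.mem_comap]
      by_cases hbu : b = u
      · rw [hbu, eps_X_self]; exact zero_mem _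
      · rw [eps_X_ne hbu]
        exact Submodule.mem_sup_right (Ideal.subset_span
          ⟨b, fun h => hb (Finset.mem_erase.2 ⟨hbu, h⟩), rfl⟩)
  have h2 := h1 hg
  rw [Ideal.mem_comap] at h2
  rwa [← mem_fr.1 hgu]

/-- **nondegeneracy** -/
theorem jj_nondeg' (hA : Pos A) (s : Finset B) : ∀ H : MvPolynomial B k,
    (∀ g, jj hA s (g * H) = 0) → H ∈ I' A s := by
  induction s using Finset.strongInduction with
  | _ s ih =>
    intro H hH
    rcases s.eq_empty_or_nonempty with rfl | hs
    · have h1 := hH 1
      rw [one_mul, jj_empty] at h1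
      refine Submodule.mem_sup_right ?_
      have key : ∀ g : MvPolynomial B k, g - C (aeval (fun _ => (0 : k)) g) ∈
          Ideal.span {f | ∃ b, b ∉ (∅ : Finset B) ∧ f = (X b : MvPolynomial B k)} := by
        intro g
        induction g using MvPolynomial.induction_on with
        | C c => rw [aeval_C]; simp
        | add p q hp hq =>
          rw [map_add, map_add]
          have : p + q - (C (aeval (fun _ => (0 : k)) p) + C (aeval (fun _ => (0 : k)) q)) =
            (p - C (aeval (fun _ => (0 : k)) p)) + (q - C (aeval (fun _ => (0 : k)) q)) := by ring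
          rw [this]
          exact add_mem hp hq
        | mul_X p v hp =>
          rw [map_mul, aeval_X, mul_zero, map_zero, sub_zero]
          exact Ideal.mul_mem_left _ _ (Ideal.subset_span ⟨v, by simp, rfl⟩)
      have h2 := key H
      rwa [h1, map_zero, sub_zero] at h2
    · -- every residue lies in the ideal of `s - u`
      have h1 : ∀ u ∈ s, In A s u * H ∈ I' A s := by
        intro u hu
        have h2 : ∀ m : ℕ, res u (Y A s {u}) (X u ^ m * H) ∈
            I A (s.erase u) ⊔ Ideal.span {f | ∃ b, b ∉ s ∧ f = X b} := by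
          intro m
          refine eps_I (ih _ (Finset.erase_ssubset hu) _ ?_) (res_mem_fr_self (monic_Y s u) _)
          intro g
          have e1 : g * res u (Y A s {u}) (X u ^ m * H) =
              (g - eps u g) * res u (Y A s {u}) (X u ^ m * H) +
                res u (Y A s {u}) (eps u g * (X u ^ m * H)) := by
            rw [res_fr_mul (eps_mem_fr u g)]; ring
          rw [e1, map_add, ← jj_step hA s u hu]
          have e2 : eps u g * (X u ^ m * H) * In A s u = (eps u g * X u ^ m * In A s u) * H := by
            ring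
          rw [e2, hH, add_zero]
          obtain ⟨q, hq⟩ := Ideal.mem_span_singleton'.1 (sub_eps_mem u g)
          rw [← hq]
          have e3 : q * X u * res u (Y A s {u}) (X u ^ m * H) =
              X u * (q * res u (Y A s {u}) (X u ^ m * H)) := by ring
          rw [e3]
          exact jj_X hA _ u (Finset.notMem_erase u s) _
        have h3 := mem_of_res (monic_Y s u) _ h2
        have h4 : Ideal.span {Y A s {u}} ⊔ (I A (s.erase u) ⊔
            Ideal.span {f | ∃ b, b ∉ s ∧ f = X b}) ≤
            Submodule.comap (LinearMap.mulLeft (MvPolynomial B k) (In A s u)) (I' A s) := by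
          refine sup_le ?_ (sup_le ?_ ?_)
          · refine Submodule.span_le.2 ?_
            rintro _ rfl
            change In A s u * Y A s {u} ∈ I' A s
            exact Submodule.mem_sup_left (Ideal.mul_mem_left _ _ (Ideal.subset_span
              ⟨{u}, Finset.singleton_subset_iff.2 hu, Finset.singleton_nonempty u, rfl⟩))
          · refine Submodule.span_le.2 ?_
            rintro _ ⟨U, hU, hne, rfl⟩
            exact Submodule.mem_sup_left (In_mul_Y hU hne)
          · refine Submodule.span_le.2 ?_
            rintro _ ⟨b, hb, rfl⟩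
            exact Submodule.mem_sup_right (Ideal.mul_mem_left _ _
              (Ideal.subset_span ⟨b, hb, rfl⟩))
        exact h4 h3
      obtain ⟨i, hi, h2⟩ := cc_spec hA hs
      have h3 : H * i + ∑ u ∈ s, cc hA s u * (In A s u * H) = H := by
        have e : ∑ u ∈ s, cc hA s u * (In A s u * H) = (∑ u ∈ s, cc hA s u * In A s u) * H := by
          rw [Finset.sum_mul]
          exact Finset.sum_congr rfl fun u _ => by ring
        rw [e]
        linear_combination (-H) * h2
      rw [← h3]
      exact add_mem (Submodule.mem_sup_left (Ideal.mul_mem_left _ _ hi))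
        (sum_mem fun u hu => Ideal.mul_mem_left _ _ (h1 u hu))

end nondeg

end Vale.Agent.P291.JF
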