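import Mathlib

/-!
# P291, LINK L2, K-theory core, part A: Hilbert functions of homogeneous ideals
-/

set_option linter.unusedSectionVars false

open MvPolynomial Module

namespace Vale.Agent.P291.L2K

variable {k V Γ : Type*} [Field k] [AddCommGroup Γ]

section act

/-- translation of functions -/
def tr (g : Γ) : (Γ → ℤ) →ₗ[ℤ] (Γ → ℤ) where
  toFun h := fun γ => h (γ - g)
  map_add' := fun _ _ => rfl
  map_smul' := fun _ _ => rfl

/-- the action of the group ring on functions on the group -/
noncomputable def T : AddMonoidAlgebra ℤ Γ →ₐ[ℤ] Module.End ℤ (Γ → ℤ) :=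
  AddMonoidAlgebra.lift ℤ (Module.End ℤ (Γ → ℤ)) Γ
    { toFun := fun g => tr (Multiplicative.toAdd g)
      map_one' := by
        ext h γ
        simp [tr]
      map_mul' := fun a b => by
        ext h γ
        simp [tr, sub_sub] }

/-- the element `e^g` -/
noncomputable abbrev ee (g : Γ) : AddMonoidAlgebra ℤ Γ := AddMonoidAlgebra.single g 1

theorem T_ee (g : Γ) (h : Γ → ℤ) (γ : Γ) : T (ee g) h γ = h (γ - g) := by
  rw [T, ee, AddMonoidAlgebra.lift_single, one_smul]
  rfl

theorem T_single (g : Γ) (c : ℤ) (h : Γ → ℤ) (γ : Γ) :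
    T (AddMonoidAlgebra.single g c) h γ = c * h (γ - g) := by
  rw [T, AddMonoidAlgebra.lift_single]
  rfl

theorem T_mul (a b : AddMonoidAlgebra ℤ Γ) (h : Γ → ℤ) : T (a * b) h = T a (T b h) := by
  rw [map_mul]; rfl

variable [DecidableEq Γ]

/-- the delta function at zero -/
def dl : Γ → ℤ := fun γ => if γ = 0 then 1 else 0

theorem T_dl (L : AddMonoidAlgebra ℤ Γ) (γ : Γ) : T L dl γ = L.coeff γ := by
  induction L using AddMonoidAlgebra.induction_linear with
  | zero => simp
  | add a b ha hb => rw [map_add]; simp [ha, hb]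
  | single g c =>
    rw [T_single, dl, AddMonoidAlgebra.coeff_single, Finsupp.single_apply]
    by_cases h : g = γ
    · simp [h]
    · rw [if_neg h, if_neg (fun h' => h (sub_eq_zero.1 h').symm), mul_zero]

theorem T_dl_injective {L L' : AddMonoidAlgebra ℤ Γ} (h : T L dl = T L' dl) : L = L' := by
  ext γ
  rw [← T_dl, ← T_dl, h]

end act

section ideals

variable (w : V → Γ)

/-- homogeneous ideals -/
def Hg (J : Ideal (MvPolynomial V k)) : Prop :=
  ∀ f ∈ J, ∀ γ, weightedHomogeneousComponent w γ f ∈ J

/-- the colon ideal -/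
def cl (J : Ideal (MvPolynomial V k)) (f : MvPolynomial V k) : Ideal (MvPolynomial V k) where
  carrier := {a | a * f ∈ J}
  add_mem' := fun {a b} ha hb => by
    change (a + b) * f ∈ J
    rw [add_mul]; exact J.add_mem ha hb
  zero_mem' := by change (0 : MvPolynomial V k) * f ∈ J; rw [zero_mul]; exact J.zero_mem
  smul_mem' := fun c {a} ha => by
    change (c * a) * f ∈ J
    rw [mul_assoc]; exact J.mul_mem_left c ha

theorem mem_cl {J : Ideal (MvPolynomial V k)} {f a : MvPolynomial V k} :
    a ∈ cl J f ↔ a * f ∈ J := Iff.rfl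

theorem le_cl (J : Ideal (MvPolynomial V k)) (f : MvPolynomial V k) : J ≤ cl J f :=
  fun _ ha => J.mul_mem_right f ha

variable {w}

theorem comp_mul {f : MvPolynomial V k} {γf : Γ} (hf : IsWeightedHomogeneous w f γf)
    (a : MvPolynomial V k) (γ : Γ) :
    weightedHomogeneousComponent w γ (a * f) =
      weightedHomogeneousComponent w (γ - γf) a * f := by
  classical
  ext d
  rw [coeff_weightedHomogeneousComponent, coeff_mul, coeff_mul]
  split_ifs with h
  · refine Finset.sum_congr rfl fun x hx => ?_
    rw [coeff_weightedHomogeneousComponent]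
    by_cases h2 : coeff x.2 f = 0
    · rw [h2, mul_zero, mul_zero]
    · have h3 := hf h2
      have h4 : Finsupp.weight w d = Finsupp.weight w x.1 + Finsupp.weight w x.2 := by
        rw [← map_add, Finset.HasAntidiagonal.mem_antidiagonal.1 hx]
      rw [if_pos]
      rw [h3, h] at h4
      exact (sub_eq_of_eq_add h4).symm
  · symm
    refine Finset.sum_eq_zero fun x hx => ?_
    rw [coeff_weightedHomogeneousComponent]
    by_cases h2 : coeff x.2 f = 0
    · rw [h2, mul_zero]
    · have h3 := hf h2
      have h4 : Finsupp.weight w d = Finsupp.weight w x.1 + Finsupp.weight w x.2 := by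
        rw [← map_add, Finset.HasAntidiagonal.mem_antidiagonal.1 hx]
      rw [if_neg, zero_mul]
      intro h5
      apply h
      rw [h4, h3, h5, sub_add_cancel]

theorem sum_comp (f : MvPolynomial V k) :
    ∃ s : Finset Γ, f = ∑ γ ∈ s, weightedHomogeneousComponent w γ f := by
  classical
  refine ⟨f.support.image (Finsupp.weight w), ?_⟩
  ext d
  rw [coeff_sum]
  by_cases hd : coeff d f = 0
  · rw [hd]
    symm
    refine Finset.sum_eq_zero fun γ _ => ?_
    rw [coeff_weightedHomogeneousComponent]
    split_ifs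
    · exact hd
    · rfl
  · rw [Finset.sum_eq_single (Finsupp.weight w d)]
    · rw [coeff_weightedHomogeneousComponent, if_pos rfl]
    · intro γ _ hγ
      rw [coeff_weightedHomogeneousComponent, if_neg (fun h => hγ h.symm)]
    · intro h
      exact absurd (Finset.mem_image_of_mem _ (mem_support_iff.2 hd)) h

theorem Hg.cl {J : Ideal (MvPolynomial V k)} (hJ : Hg w J) {f : MvPolynomial V k} {γf : Γ}
    (hf : IsWeightedHomogeneous w f γf) : Hg w (cl J f) := by
  intro a ha γ
  rw [mem_cl]
  have := hJ _ ha (γ + γf)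
  rwa [comp_mul hf, add_sub_cancel_right] at this

theorem Hg.sup {J J' : Ideal (MvPolynomial V k)} (hJ : Hg w J) (hJ' : Hg w J') :
    Hg w (J ⊔ J') := by
  intro a ha γ
  obtain ⟨b, hb, c, hc, rfl⟩ := Submodule.mem_sup.1 ha
  rw [map_add]
  exact Submodule.add_mem_sup (hJ b hb γ) (hJ' c hc γ)

/-- ideals spanned by homogeneous elements are homogeneous -/
theorem hg_span {S : Set (MvPolynomial V k)} (hS : ∀ f ∈ S, ∃ γ, IsWeightedHomogeneous w f γ) :
    Hg w (Ideal.span S) := by
  intro a ha γ
  induction ha using Submodule.span_induction generalizing γ with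
  | mem x hx =>
    obtain ⟨γf, hf⟩ := hS x hx
    have := comp_mul hf 1 γ
    rw [one_mul] at this
    rw [this]
    exact Ideal.mul_mem_left _ _ (Ideal.subset_span hx)
  | zero => rw [map_zero]; exact Ideal.zero_mem _
  | add x y _ _ hx hy => rw [map_add]; exact Ideal.add_mem _ (hx γ) (hy γ)
  | smul c x _ hx =>
    obtain ⟨s, hs⟩ := sum_comp (w := w) x
    rw [hs, smul_eq_mul, Finset.mul_sum, map_sum]
    refine Ideal.sum_mem _ fun γ' _ => ?_
    rw [comp_mul (weightedHomogeneousComponent_isWeightedHomogeneous γ' x)]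
    exact Ideal.mul_mem_left _ _ (hx γ')

theorem hg_bot : Hg w (⊥ : Ideal (MvPolynomial V k)) := by
  intro a ha γ
  rw [Ideal.mem_bot.1 ha, map_zero]
  exact Ideal.zero_mem _

theorem Hg.adj {J : Ideal (MvPolynomial V k)} (hJ : Hg w J) {f : MvPolynomial V k} {γf : Γ}
    (hf : IsWeightedHomogeneous w f γf) : Hg w (J ⊔ Ideal.span {f}) :=
  hJ.sup (hg_span fun g hg => ⟨γf, by rw [Set.mem_singleton_iff.1 hg]; exact hf⟩)

/-- graded prime (or everything): homogeneous elements outside are nonzerodivisors -/
def GP (w : V → Γ) (J : Ideal (MvPolynomial V k)) : Prop :=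
  ∀ f γ, IsWeightedHomogeneous w f γ → f ∉ J → cl J f = J

/-- **devissage** -/
theorem devissage [Finite V] (Pr : Ideal (MvPolynomial V k) → Prop)
    (hstep : ∀ J, Hg w J → ∀ f γ, IsWeightedHomogeneous w f γ →
      Pr (J ⊔ Ideal.span {f}) → Pr (cl J f) → Pr J)
    (hprime : ∀ J, Hg w J → GP w J → (∀ J', J < J' → Hg w J' → Pr J') → Pr J) :
    ∀ J, Hg w J → Pr J := by
  intro J
  have hwf : WellFounded ((· > ·) : Ideal (MvPolynomial V k) → Ideal (MvPolynomial V k) → Prop) :=
    wellFounded_gt
  induction J using hwf.induction with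
  | _ J ih =>
    intro hJ
    by_cases hgp : GP w J
    · exact hprime J hJ hgp fun J' h hJ' => ih J' h hJ'
    · unfold GP at hgp
      push Not at hgp
      obtain ⟨f, γ, hf, hfJ, hne⟩ := hgp
      refine hstep J hJ f γ hf (ih _ ?_ (hJ.adj hf)) (ih _ ?_ (hJ.cl hf))
      · refine lt_of_le_of_ne le_sup_left fun h => hfJ ?_
        rw [h]
        exact Submodule.mem_sup_right (Ideal.mem_span_singleton_self f)
      · exact lt_of_le_of_ne (le_cl J f) hne.symm

end ideals

section hilbert

variable (w : V → Γ)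

/-- graded piece of an ideal -/
noncomputable def pc (J : Ideal (MvPolynomial V k)) (γ : Γ) : Submodule k (MvPolynomial V k) :=
  J.restrictScalars k ⊓ weightedHomogeneousSubmodule k w γ

theorem mem_pc {J : Ideal (MvPolynomial V k)} {γ : Γ} {f : MvPolynomial V k} :
    f ∈ pc w J γ ↔ f ∈ J ∧ IsWeightedHomogeneous w f γ := Iff.rfl

/-- finiteness of the graded pieces -/
def Fin' : Prop := ∀ γ : Γ, {d : V →₀ ℕ | Finsupp.weight w d = γ}.Finite

variable {w}

theorem finite_piece (hw : Fin' w) (γ : Γ) :
    Module.Finite k (weightedHomogeneousSubmodule k w γ) := by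
  have := (hw γ).to_subtype
  have h1 : weightedHomogeneousSubmodule k w γ ≤
      Submodule.span k (Set.range fun d : {d : V →₀ ℕ | Finsupp.weight w d = γ} =>
        (monomial d.1 (1 : k) : MvPolynomial V k)) := by
    intro f hf
    rw [f.as_sum]
    refine Submodule.sum_mem _ fun d hd => ?_
    have h2 := hf (mem_support_iff.1 hd)
    have h3 : (monomial d (coeff d f) : MvPolynomial V k) = coeff d f • monomial d (1 : k) := by
      rw [smul_monomial, smul_eq_mul, mul_one]
    rw [h3]
    exact Submodule.smul_mem _ _ (Submodule.subset_span ⟨⟨d, h2⟩, rfl⟩)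
  have : Module.Finite k (Submodule.span k (Set.range fun d : {d : V →₀ ℕ | Finsupp.weight w d = γ} =>
        (monomial d.1 (1 : k) : MvPolynomial V k))) := by
    have := Set.finite_range fun d : {d : V →₀ ℕ | Finsupp.weight w d = γ} =>
        (monomial d.1 (1 : k) : MvPolynomial V k)
    exact Module.Finite.span_of_finite k this
  exact Submodule.finiteDimensional_of_le h1

theorem finite_pc (hw : Fin' w) (J : Ideal (MvPolynomial V k)) (γ : Γ) :
    Module.Finite k (pc w J γ) := by
  have := finite_piece (k := k) hw γ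
  exact Submodule.finiteDimensional_of_le (inf_le_right)

variable (w)

/-- Hilbert function of the quotient by `J` -/
noncomputable def hf (J : Ideal (MvPolynomial V k)) : Γ → ℤ := fun γ =>
  (finrank k (weightedHomogeneousSubmodule k w γ) : ℤ) - finrank k (pc w J γ)

variable {w}

/-- multiplication by a homogeneous element on the graded pieces -/
theorem map_pc {f : MvPolynomial V k} {γf : Γ} (hf' : IsWeightedHomogeneous w f γf)
    (J : Ideal (MvPolynomial V k)) (γ : Γ) :
    (pc w (cl J f) (γ - γf)).map (LinearMap.mulRight k f) =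
      pc w J γ ⊓ (weightedHomogeneousSubmodule k w (γ - γf)).map (LinearMap.mulRight k f) := by
  ext g
  constructor
  · rintro ⟨a, ⟨ha, ha'⟩, rfl⟩
    refine ⟨⟨ha, ?_⟩, ⟨a, ha', rfl⟩⟩
    have := ha'.mul hf'
    rw [sub_add_cancel] at this
    exact this
  · rintro ⟨⟨hg, _⟩, ⟨a, ha', rfl⟩⟩
    exact ⟨a, ⟨hg, ha'⟩, rfl⟩

theorem pc_adj {f : MvPolynomial V k} {γf : Γ} (hf' : IsWeightedHomogeneous w f γf)
    {J : Ideal (MvPolynomial V k)} (hJ : Hg w J) (γ : Γ) :
    pc w (J ⊔ Ideal.span {f}) γ =
      pc w J γ ⊔ (weightedHomogeneousSubmodule k w (γ - γf)).map (LinearMap.mulRight k f) := by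
  apply le_antisymm
  · rintro g ⟨hg, hg'⟩
    obtain ⟨a, ha, b, hb, rfl⟩ := Submodule.mem_sup.1 hg
    obtain ⟨c, rfl⟩ := Ideal.mem_span_singleton'.1 hb
    have h1 : a + c * f = weightedHomogeneousComponent w γ a +
        weightedHomogeneousComponent w (γ - γf) c * f := by
      rw [← comp_mul hf' c γ, ← map_add]
      exact (weightedHomogeneousComponent_eq_self hg').symm
    rw [h1]
    refine Submodule.add_mem_sup ⟨hJ a ha γ, weightedHomogeneousComponent_isWeightedHomogeneous γ a⟩
      ⟨_, weightedHomogeneousComponent_isWeightedHomogeneous (γ - γf) c, rfl⟩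
  · refine sup_le ?_ ?_
    · rintro g ⟨hg, hg'⟩
      exact ⟨Submodule.mem_sup_left (S := J) hg, hg'⟩
    · rintro _ ⟨a, ha, rfl⟩
      refine ⟨Submodule.mem_sup_right (S := J) (Ideal.mul_mem_left _ _ (Ideal.mem_span_singleton_self f)), ?_⟩
      have := ha.mul hf'
      rw [sub_add_cancel] at this
      exact this

/-- **additivity** -/
theorem hf_add (hw : Fin' w) {f : MvPolynomial V k} {γf : Γ}
    (hf' : IsWeightedHomogeneous w f γf) {J : Ideal (MvPolynomial V k)} (hJ : Hg w J) :
    hf w J = hf w (J ⊔ Ideal.span {f}) + T (ee γf) (hf w (cl J f)) := by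
  funext γ
  rw [Pi.add_apply, T_ee]
  by_cases hf0 : f = 0
  · subst hf0
    have h1 : J ⊔ Ideal.span {(0 : MvPolynomial V k)} = J := by
      rw [Ideal.span_singleton_eq_bot.2 rfl, sup_bot_eq]
    have h2 : cl J (0 : MvPolynomial V k) = ⊤ := by
      rw [Ideal.eq_top_iff_one, mem_cl, mul_zero]
      exact J.zero_mem
    have h3 : pc w (⊤ : Ideal (MvPolynomial V k)) (γ - γf) =
        weightedHomogeneousSubmodule k w (γ - γf) := by
      ext g; simp [mem_pc]
    rw [h1, h2, hf, hf, h3]
    ring
  · have := finite_piece (k := k) hw γ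
    have := finite_piece (k := k) hw (γ - γf)
    have := finite_pc hw J γ
    have := finite_pc hw (cl J f) (γ - γf)
    have hinj : Function.Injective (LinearMap.mulRight k f) := fun a b hab =>
      mul_right_cancel₀ hf0 hab
    have e1 : finrank k ((weightedHomogeneousSubmodule k w (γ - γf)).map (LinearMap.mulRight k f)) =
        finrank k (weightedHomogeneousSubmodule k w (γ - γf)) :=
      (Submodule.equivMapOfInjective _ hinj _).finrank_eq.symm
    have e2 : finrank k ((pc w (cl J f) (γ - γf)).map (LinearMap.mulRight k f)) =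
        finrank k (pc w (cl J f) (γ - γf)) :=
      (Submodule.equivMapOfInjective _ hinj _).finrank_eq.symm
    have e3 := Submodule.finrank_sup_add_finrank_inf_eq (pc w J γ)
      ((weightedHomogeneousSubmodule k w (γ - γf)).map (LinearMap.mulRight k f))
    rw [← pc_adj hf' hJ, ← map_pc hf' J, e1, e2] at e3
    rw [hf, hf, hf]
    have e4 : (finrank k (pc w (J ⊔ Ideal.span {f}) γ) : ℤ) +
        finrank k (pc w (cl J f) (γ - γf)) = finrank k (pc w J γ) +
        finrank k (weightedHomogeneousSubmodule k w (γ - γf)) := by exact_mod_cast e3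
    linarith

end hilbert

end Vale.Agent.P291.L2K
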