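import Vale.Agent.P291.H564.KA

/-!
# P291, LINK L2, K-theory core, part B: Koszul step, Hilbert-Serre, the polynomial ring
-/

set_option linter.unusedSectionVars false

open MvPolynomial Module

namespace Vale.Agent.P291.L2K

variable {k V Γ : Type*} [Field k] [AddCommGroup Γ] [DecidableEq Γ]

/-- the class of `h` (after multiplication by `Q`) lies in `𝔟` -/
def In (Q : AddMonoidAlgebra ℤ Γ) (𝔟 : Ideal (AddMonoidAlgebra ℤ Γ)) (h : Γ → ℤ) : Prop :=
  ∃ L ∈ 𝔟, T Q h = T L dl

theorem In.add {Q : AddMonoidAlgebra ℤ Γ} {𝔟 : Ideal (AddMonoidAlgebra ℤ Γ)} {h h' : Γ → ℤ}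
    (H : In Q 𝔟 h) (H' : In Q 𝔟 h') : In Q 𝔟 (h + h') := by
  obtain ⟨L, hL, e⟩ := H
  obtain ⟨L', hL', e'⟩ := H'
  refine ⟨L + L', 𝔟.add_mem hL hL', ?_⟩
  rw [map_add, e, e', map_add]
  rfl

theorem In.sub {Q : AddMonoidAlgebra ℤ Γ} {𝔟 : Ideal (AddMonoidAlgebra ℤ Γ)} {h h' : Γ → ℤ}
    (H : In Q 𝔟 h) (H' : In Q 𝔟 h') : In Q 𝔟 (h - h') := by
  obtain ⟨L, hL, e⟩ := H
  obtain ⟨L', hL', e'⟩ := H'
  refine ⟨L - L', 𝔟.sub_mem hL hL', ?_⟩
  rw [map_sub, e, e', map_sub]
  rfl

theorem In.act {Q : AddMonoidAlgebra ℤ Γ} {𝔟 : Ideal (AddMonoidAlgebra ℤ Γ)} {h : Γ → ℤ}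
    (H : In Q 𝔟 h) (a : AddMonoidAlgebra ℤ Γ) : In Q 𝔟 (T a h) := by
  obtain ⟨L, hL, e⟩ := H
  refine ⟨a * L, 𝔟.mul_mem_left a hL, ?_⟩
  rw [← T_mul, mul_comm, T_mul, e, T_mul]

theorem In.mulQ {Q : AddMonoidAlgebra ℤ Γ} {𝔟 : Ideal (AddMonoidAlgebra ℤ Γ)} {h : Γ → ℤ}
    (H : In Q 𝔟 h) (a : AddMonoidAlgebra ℤ Γ) : In (a * Q) 𝔟 h := by
  obtain ⟨L, hL, e⟩ := H
  refine ⟨a * L, 𝔟.mul_mem_left a hL, ?_⟩
  rw [T_mul, e, T_mul]

theorem In.zero {Q : AddMonoidAlgebra ℤ Γ} {𝔟 : Ideal (AddMonoidAlgebra ℤ Γ)} :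
    In Q 𝔟 (0 : Γ → ℤ) := ⟨0, 𝔟.zero_mem, by rw [map_zero, map_zero]; rfl⟩

section

variable {w : V → Γ}

/-- multiplication by a nonzerodivisor -/
theorem hf_reg (hw : Fin' w) {f : MvPolynomial V k} {γf : Γ}
    (hf' : IsWeightedHomogeneous w f γf) {J : Ideal (MvPolynomial V k)} (hJ : Hg w J)
    (hreg : cl J f = J) :
    T (1 - ee γf) (hf w J) = hf w (J ⊔ Ideal.span {f}) := by
  have h1 := hf_add hw hf' hJ
  rw [hreg] at h1
  rw [map_sub, map_one]
  change hf w J - T (ee γf) (hf w J) = _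
  rw [sub_eq_iff_eq_add]
  exact h1

/-- **Koszul step** -/
theorem koszul [Finite V] (hw : Fin' w) {S : Type*} [Fintype S] [DecidableEq S]
    (g : S → MvPolynomial V k) (u : S → Γ) (hg : ∀ j, IsWeightedHomogeneous w (g j) (u j))
    (Q : AddMonoidAlgebra ℤ Γ) (𝔟 : Ideal (AddMonoidAlgebra ℤ Γ))
    (H : ∀ J : Ideal (MvPolynomial V k), Hg w J → (∀ j, g j ∈ J) → In Q 𝔟 (hf w J)) :
    ∀ J : Ideal (MvPolynomial V k), Hg w J → ∀ D : Finset S, (∀ j ∈ D, g j ∈ J) →
      In ((∏ j ∈ Dᶜ, (1 - ee (u j))) * Q) 𝔟 (hf w J) := by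
  refine devissage _ ?_ ?_
  · intro J hJ f γ hf' h1 h2 D hD
    rw [hf_add hw hf' hJ]
    exact (h1 D fun j hj => Submodule.mem_sup_left (hD j hj)).add
      ((h2 D fun j hj => le_cl J f (hD j hj)).act _)
  · intro J hJ hgp h D hD
    by_cases hall : ∀ j, g j ∈ J
    · exact (H J hJ hall).mulQ _
    · push Not at hall
      obtain ⟨j, hj⟩ := hall
      have hjD : j ∉ D := fun h' => hj (hD j h')
      have h1 := h (J ⊔ Ideal.span {g j})
        (lt_of_le_of_ne le_sup_left fun h' => hj (by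
          rw [h']; exact Submodule.mem_sup_right (Ideal.mem_span_singleton_self _)))
        (hJ.adj (hg j)) (insert j D) (by
          intro i hi
          rcases Finset.mem_insert.1 hi with rfl | hi
          · exact Submodule.mem_sup_right (Ideal.mem_span_singleton_self _)
          · exact Submodule.mem_sup_left (hD i hi))
      rw [← hf_reg hw (hg j) hJ (hgp _ _ (hg j) hj)] at h1
      obtain ⟨L, hL, e⟩ := h1
      refine ⟨L, hL, ?_⟩
      rw [← e, ← T_mul]
      congr 1
      have h2 : Dᶜ = insert j (insert j D)ᶜ := by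
        ext i
        simp only [Finset.mem_compl, Finset.mem_insert, not_or]
        constructor
        · intro hi
          by_cases hij : i = j
          · exact Or.inl hij
          · exact Or.inr ⟨hij, hi⟩
        · rintro (rfl | hi)
          · exact hjD
          · exact hi.2
      rw [h2, Finset.prod_insert (by simp)]
      congr 1
      ring

/-- in nonzero degree a homogeneous polynomial lies in the ideal of the variables -/
theorem mem_of_ne_zero {J : Ideal (MvPolynomial V k)} (hJ : ∀ v, X v ∈ J) {γ : Γ} (hγ : γ ≠ 0)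
    {f : MvPolynomial V k} (hf' : IsWeightedHomogeneous w f γ) : f ∈ J := by
  rw [f.as_sum]
  refine J.sum_mem fun d hd => ?_
  have h1 := hf' (MvPolynomial.mem_support_iff.1 hd)
  have h2 : d ≠ 0 := by
    rintro rfl
    rw [map_zero] at h1
    exact hγ h1.symm
  obtain ⟨v, hv⟩ := Finsupp.ne_iff.1 h2
  have h3 : (monomial d (coeff d f) : MvPolynomial V k) =
      monomial (d - Finsupp.single v 1) (coeff d f) * X v := by
    rw [X, monomial_mul, mul_one]
    congr 1
    rw [tsub_add_cancel_of_le]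
    exact Finsupp.single_le_iff.2 (Nat.one_le_iff_ne_zero.2 hv)
  rw [h3]
  exact J.mul_mem_left _ (hJ v)

theorem hf_vars {J : Ideal (MvPolynomial V k)} (hJ : ∀ v, X v ∈ J) :
    hf w J = T (AddMonoidAlgebra.single 0 (hf w J 0)) dl := by
  funext γ
  rw [T_dl, AddMonoidAlgebra.coeff_single, Finsupp.single_apply]
  split_ifs with h
  · rw [h]
  · rw [hf]
    have : pc w J γ = weightedHomogeneousSubmodule k w γ := by
      ext f
      rw [mem_pc]
      exact ⟨fun h => h.2, fun h' => ⟨mem_of_ne_zero hJ (fun h'' => h h''.symm) h', h'⟩⟩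
    rw [this, sub_self]

/-- **Hilbert-Serre** -/
theorem serre [Fintype V] [DecidableEq V] (hw : Fin' w) (J : Ideal (MvPolynomial V k))
    (hJ : Hg w J) (C : Finset V) (hC : ∀ v ∈ C, X v ∈ J) :
    In (∏ v ∈ Cᶜ, (1 - ee (w v))) ⊤ (hf w J) := by
  have := koszul hw (fun v : V => (X v : MvPolynomial V k)) w (fun v => isWeightedHomogeneous_X k w v)
    1 ⊤ (fun J hJ hJv => ⟨AddMonoidAlgebra.single 0 (hf w J 0), Submodule.mem_top, by
      rw [← hf_vars (w := w) hJv, map_one]
      rfl⟩) J hJ C hC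
  rwa [mul_one] at this

theorem hf_top : hf w (⊤ : Ideal (MvPolynomial V k)) = 0 := by
  funext γ
  rw [hf]
  have : pc w (⊤ : Ideal (MvPolynomial V k)) γ = weightedHomogeneousSubmodule k w γ := by
    ext f
    rw [mem_pc]
    exact ⟨fun h => h.2, fun h' => ⟨Submodule.mem_top, h'⟩⟩
  rw [this, sub_self]
  rfl

theorem weight_zero (hw : Fin' w) {d : V →₀ ℕ} (hd : Finsupp.weight w d = 0) : d = 0 := by
  by_contra h
  have h1 : Function.Injective fun n : ℕ => n • d := by
    intro a b hab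
    obtain ⟨v, hv⟩ := Finsupp.ne_iff.1 h
    have := DFunLike.congr_fun hab v
    simp only [Finsupp.smul_apply, smul_eq_mul] at this
    exact Nat.eq_of_mul_eq_mul_right (Nat.pos_of_ne_zero hv) this
  refine Set.infinite_of_injective_forall_mem h1 (s := {d : V →₀ ℕ | Finsupp.weight w d = 0})
    (fun n => ?_) (hw 0)
  change Finsupp.weight w (n • d) = 0
  rw [map_nsmul, hd, smul_zero]

/-- the ideal of some of the variables -/
theorem cl_vars (C : Finset V) {v : V} (hv : v ∉ C) :
    cl (Ideal.span (X '' (C : Set V)) : Ideal (MvPolynomial V k)) (X v) =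
      Ideal.span (X '' (C : Set V)) := by
  refine le_antisymm ?_ (le_cl _ _)
  intro a ha
  rw [mem_cl, mem_ideal_span_X_image] at ha
  rw [mem_ideal_span_X_image]
  intro m hm
  classical
  obtain ⟨i, hi, h⟩ := ha (m + Finsupp.single v 1) (by
    rw [MvPolynomial.mem_support_iff, coeff_mul_X]
    exact MvPolynomial.mem_support_iff.1 hm)
  refine ⟨i, hi, ?_⟩
  rw [Finsupp.add_apply, Finsupp.single_apply, if_neg] at h
  · rwa [add_zero] at h
  · rintro rfl
    exact hv hi

theorem hf_bot [Fintype V] (hw : Fin' w) :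
    T (∏ v, (1 - ee (w v))) (hf w (⊥ : Ideal (MvPolynomial V k))) = dl := by
  classical
  have h1 : ∀ C : Finset V, T (∏ v ∈ C, (1 - ee (w v))) (hf w (⊥ : Ideal (MvPolynomial V k))) =
      hf w (Ideal.span (X '' (C : Set V)) : Ideal (MvPolynomial V k)) := by
    intro C
    induction C using Finset.induction_on with
    | empty =>
      rw [Finset.prod_empty, map_one, Finset.coe_empty, Set.image_empty, Ideal.span_empty]
      rfl
    | insert v C hv ih =>
      rw [Finset.prod_insert hv, T_mul, ih, hf_reg hw (isWeightedHomogeneous_X k w v) _ (cl_vars C hv)]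
      · congr 1
        rw [Finset.coe_insert, Set.image_insert_eq, Ideal.span_insert, sup_comm]
      · refine hg_span ?_
        rintro _ ⟨v, _, rfl⟩
        exact ⟨_, isWeightedHomogeneous_X k w v⟩
  rw [h1, hf_vars (J := Ideal.span (X '' ((Finset.univ : Finset V) : Set V)))
    (fun v => Ideal.subset_span ⟨v, by simp, rfl⟩)]
  have h2 : hf w (Ideal.span (X '' ((Finset.univ : Finset V) : Set V)) : Ideal (MvPolynomial V k)) 0
      = 1 := by
    rw [hf]
    have e1 : pc w (Ideal.span (X '' ((Finset.univ : Finset V) : Set V)) :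
        Ideal (MvPolynomial V k)) 0 = ⊥ := by
      rw [eq_bot_iff]
      rintro f ⟨hf1, hf2⟩
      rw [Submodule.mem_bot]
      by_contra hne
      obtain ⟨d, hd⟩ := MvPolynomial.ne_zero_iff.1 hne
      have hd0 := weight_zero hw (hf2 hd)
      subst hd0
      obtain ⟨i, _, hi⟩ := mem_ideal_span_X_image.1 hf1 0 (MvPolynomial.mem_support_iff.2 hd)
      exact hi rfl
    have e2 : weightedHomogeneousSubmodule k w (0 : Γ) = Submodule.span k {(1 : MvPolynomial V k)} := by
      apply le_antisymm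
      · intro f hf'
        rw [Submodule.mem_span_singleton]
        refine ⟨coeff 0 f, ?_⟩
        ext d
        rw [coeff_smul, coeff_one, smul_eq_mul]
        split_ifs with h
        · rw [← h, mul_one]
        · rw [mul_zero]
          by_contra hne
          exact h (weight_zero hw (hf' (Ne.symm hne))).symm
      · rw [Submodule.span_le, Set.singleton_subset_iff]
        exact isWeightedHomogeneous_one k w
    rw [e1, e2, finrank_bot, finrank_span_singleton one_ne_zero]
    rfl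
  rw [h2]
  funext γ
  rw [T_dl, AddMonoidAlgebra.coeff_single, Finsupp.single_apply, dl]
  by_cases h : γ = 0
  · rw [if_pos h, if_pos h.symm]
  · rw [if_neg h, if_neg (fun h' => h h'.symm)]

end

end Vale.Agent.P291.L2K
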