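import Vale.Agent.P291.H564.KB

/-!
# P291, LINK L2, K-theory core, part C: elimination of one variable
-/

set_option linter.unusedSectionVars false

open MvPolynomial Module

namespace Vale.Agent.P291.L2K

variable {k V Γ : Type*} [Field k] [AddCommGroup Γ] [DecidableEq V] (v0 : V)

/-- polynomials as polynomials in one variable -/
noncomputable def Psi : MvPolynomial V k →ₐ[k] Polynomial (MvPolynomial V k) :=
  aeval (fun v => if v = v0 then Polynomial.X else Polynomial.C (X v))

theorem Psi_X_self : Psi (k := k) v0 (X v0) = Polynomial.X := by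
  rw [Psi, aeval_X, if_pos rfl]

theorem Psi_X_ne {v : V} (h : v ≠ v0) : Psi (k := k) v0 (X v) = Polynomial.C (X v) := by
  rw [Psi, aeval_X, if_neg h]

theorem Psi_C (c : k) : Psi (k := k) v0 (C c) = Polynomial.C (C c) := by
  have := (Psi (k := k) v0).commutes c
  exact this

/-- polynomials without the variable `v0` -/
noncomputable abbrev A0 : Subalgebra k (MvPolynomial V k) := supported k ({v0}ᶜ : Set V)

variable {v0}

theorem Psi_of_supp {b : MvPolynomial V k} (hb : b ∈ A0 (k := k) v0) :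
    Psi v0 b = Polynomial.C b := by
  unfold A0 at hb
  rw [supported_eq_adjoin_X] at hb
  induction hb using Algebra.adjoin_induction with
  | mem x hx =>
    obtain ⟨v, hv, rfl⟩ := hx
    exact Psi_X_ne v0 hv
  | algebraMap c => exact Psi_C v0 c
  | add x y _ _ hx hy => rw [map_add, map_add, hx, hy]
  | mul x y _ _ hx hy => rw [map_mul, map_mul, hx, hy]

theorem X_supp {v : V} (h : v ≠ v0) : (X v : MvPolynomial V k) ∈ A0 (k := k) v0 :=
  X_mem_supported.2 h

theorem C_supp (c : k) : (C c : MvPolynomial V k) ∈ A0 (k := k) v0 :=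
  (A0 (k := k) v0).algebraMap_mem c

theorem Psi_coeff_supp (a : MvPolynomial V k) (n : ℕ) : (Psi v0 a).coeff n ∈ A0 (k := k) v0 := by
  induction a using MvPolynomial.induction_on generalizing n with
  | C c =>
    rw [Psi_C, Polynomial.coeff_C]
    split_ifs
    · exact C_supp c
    · exact zero_mem _
  | add p q hp hq =>
    rw [map_add, Polynomial.coeff_add]
    exact add_mem (hp n) (hq n)
  | mul_X p v hp =>
    rw [map_mul]
    by_cases h : v = v0
    · rw [h, Psi_X_self]
      cases n with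
      | zero => rw [Polynomial.coeff_mul_X_zero]; exact zero_mem _
      | succ n => rw [Polynomial.coeff_mul_X]; exact hp n
    · rw [Psi_X_ne v0 h, Polynomial.coeff_mul_C]
      exact mul_mem (hp n) (X_supp h)

theorem Psi_eval (a : MvPolynomial V k) : (Psi v0 a).eval (X v0) = a := by
  induction a using MvPolynomial.induction_on with
  | C c => rw [Psi_C, Polynomial.eval_C]
  | add p q hp hq => rw [map_add, Polynomial.eval_add, hp, hq]
  | mul_X p v hp =>
    rw [map_mul, Polynomial.eval_mul, hp]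
    by_cases h : v = v0
    · rw [h, Psi_X_self, Polynomial.eval_X]
    · rw [Psi_X_ne v0 h, Polynomial.eval_C]

variable (v0)

/-- the ideal generated by the elements without the variable `v0` -/
noncomputable def J0 (J : Ideal (MvPolynomial V k)) : Ideal (MvPolynomial V k) :=
  Ideal.span {b | b ∈ J ∧ b ∈ A0 (k := k) v0}

variable {v0}

theorem J0_le (J : Ideal (MvPolynomial V k)) : J0 v0 J ≤ J :=
  Ideal.span_le.2 fun _ h => h.1

theorem mem_J0 {J : Ideal (MvPolynomial V k)} {a : MvPolynomial V k} :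
    a ∈ J0 v0 J ↔ ∀ n, (Psi v0 a).coeff n ∈ J := by
  constructor
  · intro ha
    rw [← Ideal.mem_map_C_iff]
    have h1 : J0 v0 J ≤ (Ideal.map Polynomial.C J).comap (Psi v0 : MvPolynomial V k →ₐ[k] _) := by
      refine Ideal.span_le.2 fun b hb => ?_
      rw [SetLike.mem_coe, Ideal.mem_comap, Psi_of_supp hb.2]
      exact Ideal.mem_map_of_mem _ hb.1
    exact h1 ha
  · intro h
    rw [← Psi_eval (v0 := v0) a, Polynomial.eval_eq_sum_range]
    refine Ideal.sum_mem _ fun n _ => Ideal.mul_mem_right _ _ ?_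
    exact Ideal.subset_span ⟨h n, Psi_coeff_supp a n⟩

variable {w : V → Γ}

theorem comp_supp {b : MvPolynomial V k} (hb : b ∈ A0 (k := k) v0) (γ : Γ) :
    weightedHomogeneousComponent w γ b ∈ A0 (k := k) v0 := by
  classical
  rw [mem_supported] at hb ⊢
  intro v hv
  apply hb
  rw [Finset.mem_coe, MvPolynomial.mem_vars_iff_mem_support] at hv ⊢
  obtain ⟨d, hd, hv⟩ := hv
  refine ⟨d, ?_, hv⟩
  rw [MvPolynomial.mem_support_iff] at hd ⊢
  intro h
  apply hd
  rw [coeff_weightedHomogeneousComponent, h]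
  split_ifs <;> rfl

theorem hg_J0 {J : Ideal (MvPolynomial V k)} (hJ : Hg w J) : Hg w (J0 v0 J) := by
  have h1 : J0 v0 J = Ideal.span {b | (b ∈ J ∧ b ∈ A0 (k := k) v0) ∧
      ∃ γ, IsWeightedHomogeneous w b γ} := by
    apply le_antisymm
    · refine Ideal.span_le.2 fun b hb => ?_
      obtain ⟨s, hs⟩ := sum_comp (w := w) b
      rw [SetLike.mem_coe, hs]
      refine Ideal.sum_mem _ fun γ _ => Ideal.subset_span ⟨⟨hJ b hb.1 γ, comp_supp hb.2 γ⟩, γ,
        weightedHomogeneousComponent_isWeightedHomogeneous γ b⟩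
    · exact Ideal.span_mono fun b hb => hb.1
  rw [h1]
  exact hg_span fun f hf' => hf'.2

/-- `X v0 * x + r` is a nonzerodivisor modulo `J0` -/
theorem cl_J0 {J : Ideal (MvPolynomial V k)} {x r : MvPolynomial V k} (hx : x ∈ A0 (k := k) v0)
    (hr : r ∈ A0 (k := k) v0) (hxJ : cl J x = J) :
    cl (J0 v0 J) (X v0 * x + r) = J0 v0 J := by
  refine le_antisymm ?_ (le_cl _ _)
  intro a ha
  rw [mem_cl, mem_J0] at ha
  rw [mem_J0]
  have h1 : ∀ n, (Psi v0 (a * (X v0 * x + r))).coeff (n + 1) =
      (Psi v0 a).coeff n * x + (Psi v0 a).coeff (n + 1) * r := by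
    intro n
    have : Psi v0 (a * (X v0 * x + r)) =
        Psi v0 a * Polynomial.C x * Polynomial.X + Psi v0 a * Polynomial.C r := by
      rw [map_mul, map_add, map_mul, Psi_X_self, Psi_of_supp hx, Psi_of_supp hr]
      ring
    rw [this, Polynomial.coeff_add, Polynomial.coeff_mul_X, Polynomial.coeff_mul_C,
      Polynomial.coeff_mul_C]
  have h2 : ∀ m n, (Psi v0 a).natDegree < n + m → (Psi v0 a).coeff n ∈ J := by
    intro m
    induction m with
    | zero =>
      intro n hn
      rw [add_zero] at hn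
      rw [Polynomial.coeff_eq_zero_of_natDegree_lt hn]
      exact J.zero_mem
    | succ m ih =>
      intro n hn
      have h3 := ih (n + 1) (by omega)
      have h4 := ha (n + 1)
      rw [h1] at h4
      have h5 : (Psi v0 a).coeff n * x ∈ J := by
        have := J.sub_mem h4 (J.mul_mem_right r h3)
        rwa [add_sub_cancel_right] at this
      rw [← hxJ]
      exact h5
  intro n
  exact h2 ((Psi v0 a).natDegree + 1) n (by omega)

theorem red {x r : MvPolynomial V k} (hx : x ∈ A0 (k := k) v0)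
    (hr : r ∈ A0 (k := k) v0) (g : MvPolynomial V k) :
    ∃ n : ℕ, ∃ g0 ∈ A0 (k := k) v0, x ^ n * g - g0 ∈ Ideal.span {X v0 * x + r} := by
  induction g using MvPolynomial.induction_on with
  | C c => exact ⟨0, C c, C_supp c, by rw [pow_zero, one_mul, sub_self]; exact Ideal.zero_mem _⟩
  | add p q hp hq =>
    obtain ⟨n, g0, hg0, h⟩ := hp
    obtain ⟨m, g1, hg1, h'⟩ := hq
    refine ⟨n + m, x ^ m * g0 + x ^ n * g1,
      add_mem (mul_mem (pow_mem hx m) hg0) (mul_mem (pow_mem hx n) hg1), ?_⟩
    have : x ^ (n + m) * (p + q) - (x ^ m * g0 + x ^ n * g1) =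
        x ^ m * (x ^ n * p - g0) + x ^ n * (x ^ m * q - g1) := by ring
    rw [this]
    exact Ideal.add_mem _ (Ideal.mul_mem_left _ _ h) (Ideal.mul_mem_left _ _ h')
  | mul_X p v hp =>
    obtain ⟨n, g0, hg0, h⟩ := hp
    by_cases hv : v = v0
    · refine ⟨n + 1, - (g0 * r), neg_mem (mul_mem hg0 hr), ?_⟩
      have : x ^ (n + 1) * (p * X v) - -(g0 * r) =
          x ^ n * p * (X v0 * x + r) - r * (x ^ n * p - g0) := by
        rw [hv]; ring
      rw [this]
      exact Ideal.sub_mem _ (Ideal.mul_mem_left _ _ (Ideal.mem_span_singleton_self _))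
        (Ideal.mul_mem_left _ _ h)
    · refine ⟨n, g0 * X v, mul_mem hg0 (X_supp hv), ?_⟩
      have : x ^ n * (p * X v) - g0 * X v = X v * (x ^ n * p - g0) := by ring
      rw [this]
      exact Ideal.mul_mem_left _ _ h

theorem mem_red {J : Ideal (MvPolynomial V k)} {x r : MvPolynomial V k}
    (hx : x ∈ A0 (k := k) v0) (hr : r ∈ A0 (k := k) v0) (hs : X v0 * x + r ∈ J)
    {g : MvPolynomial V k} (hg : g ∈ J) :
    ∃ n : ℕ, x ^ n * g ∈ J0 v0 J ⊔ Ideal.span {X v0 * x + r} := by
  obtain ⟨n, g0, hg0, h⟩ := red hx hr g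
  refine ⟨n, ?_⟩
  have h1 : Ideal.span {X v0 * x + r} ≤ J := (Ideal.span_singleton_le_iff_mem _).2 hs
  have h2 : g0 ∈ J := by
    have := J.sub_mem (J.mul_mem_left (x ^ n) hg) (h1 h)
    rwa [sub_sub_cancel] at this
  have h3 : x ^ n * g = g0 + (x ^ n * g - g0) := by ring
  rw [h3]
  exact Submodule.add_mem_sup (Ideal.subset_span ⟨h2, hg0⟩) h

end Vale.Agent.P291.L2K
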