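import Vale.Agent.P291.H564.KC

/-!
# P291, LINK L2, K-theory core, part D: the main step
-/

set_option linter.unusedSectionVars false

open MvPolynomial Module

namespace Vale.Agent.P291.L2K

section radical

variable {k V Γ : Type*} [Field k] [AddCommGroup Γ] {w : V → Γ}

/-- graded primes contain homogeneous elements with their powers -/
theorem GP.of_pow {J : Ideal (MvPolynomial V k)} (hJ : GP w J) {f : MvPolynomial V k} {γ : Γ}
    (hf' : IsWeightedHomogeneous w f γ) (m : ℕ) (h : f ^ m ∈ J) : f ∈ J := by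
  by_contra hne
  have h1 : ∀ m : ℕ, f ^ m ∈ J → f ^ 0 ∈ J := by
    intro m
    induction m with
    | zero => exact id
    | succ m ih =>
      intro h
      apply ih
      rw [← hJ f γ hf' hne, mem_cl, ← pow_succ]
      exact h
  apply hne
  have := h1 m h
  rw [pow_zero] at this
  have h2 := J.mul_mem_left f this
  rwa [mul_one] at h2

theorem GP.of_prod {J : Ideal (MvPolynomial V k)} (hJ : GP w J) (h1 : (1 : MvPolynomial V k) ∉ J)
    {ι : Type*} (s : Finset ι) (g : ι → MvPolynomial V k) (u : ι → Γ)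
    (hg : ∀ i, IsWeightedHomogeneous w (g i) (u i)) (h : ∏ i ∈ s, g i ∈ J) :
    ∃ i ∈ s, g i ∈ J := by
  classical
  induction s using Finset.induction_on with
  | empty => rw [Finset.prod_empty] at h; exact absurd h h1
  | insert i s hi ih =>
    by_cases h2 : g i ∈ J
    · exact ⟨i, Finset.mem_insert_self _ _, h2⟩
    · rw [Finset.prod_insert hi, mul_comm] at h
      have h3 : ∏ i ∈ s, g i ∈ J := by
        rw [← hJ (g i) (u i) (hg i) h2]
        exact h
      obtain ⟨j, hj, h4⟩ := ih h3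
      exact ⟨j, Finset.mem_insert_of_mem hj, h4⟩

/-- going up from `N` to `J` -/
theorem climb [DecidableEq Γ] [Fintype V] (hw : Fin' w) {Q : AddMonoidAlgebra ℤ Γ}
    {𝔟 : Ideal (AddMonoidAlgebra ℤ Γ)} {N J : Ideal (MvPolynomial V k)} (hN : Hg w N)
    (hJ : Hg w J) (hNJ : N ≤ J) (hgood : In Q 𝔟 (hf w N))
    (hcl : ∀ N' : Ideal (MvPolynomial V k), N ≤ N' → N' ≤ J → Hg w N' → ∀ f ∈ J, ∀ γ,
      IsWeightedHomogeneous w f γ → In Q 𝔟 (hf w (cl N' f))) : In Q 𝔟 (hf w J) := by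
  have hwf : WellFounded ((· > ·) : Ideal (MvPolynomial V k) → Ideal (MvPolynomial V k) → Prop) :=
    wellFounded_gt
  obtain ⟨M, ⟨hM1, hM2, hM3, hM4⟩, hmax⟩ := hwf.has_min
    {N' : Ideal (MvPolynomial V k) | N ≤ N' ∧ N' ≤ J ∧ Hg w N' ∧ In Q 𝔟 (hf w N')}
    ⟨N, le_rfl, hNJ, hN, hgood⟩
  suffices h : M = J by rwa [h] at hM4
  by_contra hne
  obtain ⟨g, hgJ, hgM⟩ := SetLike.exists_of_lt (lt_of_le_of_ne hM2 hne)
  have h1 : ∃ γ, weightedHomogeneousComponent w γ g ∉ M := by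
    by_contra hall
    push Not at hall
    obtain ⟨s, hs⟩ := sum_comp (w := w) g
    apply hgM
    rw [hs]
    exact M.sum_mem fun γ _ => hall γ
  obtain ⟨γ, hγ⟩ := h1
  have hf' := weightedHomogeneousComponent_isWeightedHomogeneous (w := w) γ g
  refine hmax (M ⊔ Ideal.span {weightedHomogeneousComponent w γ g}) ⟨hM1.trans le_sup_left,
    sup_le hM2 ((Ideal.span_singleton_le_iff_mem _).2 (hJ g hgJ γ)), hM3.adj hf', ?_⟩ ?_
  · have h2 := hf_add hw hf' hM3
    have h3 : hf w (M ⊔ Ideal.span {weightedHomogeneousComponent w γ g}) =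
        hf w M - T (ee γ) (hf w (cl M (weightedHomogeneousComponent w γ g))) :=
      eq_sub_of_add_eq h2.symm
    rw [h3]
    exact hM4.sub ((hcl M hM1 hM2 hM3 _ (hJ g hgJ γ) γ hf').act _)
  · refine lt_of_le_of_ne le_sup_left fun h' => hγ ?_
    rw [h']
    exact Submodule.mem_sup_right (Ideal.mem_span_singleton_self _)

end radical

section main

variable {k ι Θ Γ : Type*} [Field k] [AddCommGroup Γ] [DecidableEq Γ] [Fintype ι] [DecidableEq ι]
  [Fintype Θ] [DecidableEq Θ] (w : ι ⊕ Θ → Γ) (τ : Θ → Finset ι)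

/-- the monomial `x^τ` -/
noncomputable def xm (k : Type*) [Field k] {ι Θ : Type*} (τ : Θ → Finset ι) (j : Θ) :
    MvPolynomial (ι ⊕ Θ) k := ∏ p ∈ τ j, X (Sum.inl p)

/-- the section `s` -/
noncomputable def sec (k : Type*) [Field k] {ι Θ : Type*} [Fintype Θ] (τ : Θ → Finset ι) :
    MvPolynomial (ι ⊕ Θ) k := ∑ j, X (Sum.inr j) * xm k τ j

theorem xm_hom (j : Θ) : IsWeightedHomogeneous w (xm k τ j) (∑ p ∈ τ j, w (Sum.inl p)) :=
  IsWeightedHomogeneous.prod _ _ _ fun p _ => isWeightedHomogeneous_X k w (Sum.inl p)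

variable {w τ} in
theorem sec_hom {q : Γ} (hq : ∀ j, w (Sum.inr j) + ∑ p ∈ τ j, w (Sum.inl p) = q) :
    IsWeightedHomogeneous w (sec k τ) q := by
  unfold sec
  refine IsWeightedHomogeneous.sum _ _ _ fun j _ => ?_
  rw [← hq j]
  exact (isWeightedHomogeneous_X k w (Sum.inr j)).mul (xm_hom w τ j)

theorem xm_supp (i j : Θ) : xm k τ j ∈ A0 (k := k) (Sum.inr i : ι ⊕ Θ) :=
  prod_mem fun p _ => X_supp (by simp)

theorem sec_split (j : Θ) : ∃ r ∈ A0 (k := k) (Sum.inr j : ι ⊕ Θ),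
    sec k τ = X (Sum.inr j) * xm k τ j + r := by
  refine ⟨∑ i ∈ Finset.univ.erase j, X (Sum.inr i) * xm k τ i, sum_mem fun i hi =>
    mul_mem (X_supp fun h => (Finset.mem_erase.1 hi).1 (Sum.inr_injective h)) (xm_supp τ j i), ?_⟩
  rw [sec, ← Finset.add_sum_erase _ _ (Finset.mem_univ j)]

variable {w τ}

/-- **the main step** -/
theorem star (hw : Fin' w) {q : Γ} (hq : ∀ j, w (Sum.inr j) + ∑ p ∈ τ j, w (Sum.inl p) = q)
    (𝔞 : Ideal (AddMonoidAlgebra ℤ Γ)) (h1 : 1 - ee q ∈ 𝔞)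
    (hZ : ∀ Z : Finset ι, (∀ j, ¬ Disjoint (τ j) Z) → ∏ p ∈ Z, (1 - ee (w (Sum.inl p))) ∈ 𝔞)
    (n : ℕ) : ∀ J : Ideal (MvPolynomial (ι ⊕ Θ) k), Hg w J → (∃ m : ℕ, sec k τ ^ m ∈ J) →
    ∀ U : Finset Θ, U.card < n → (∀ j, j ∉ U → ∃ e : ℕ, xm k τ j ^ e ∈ J) →
      In (∏ v, (1 - ee (w v))) 𝔞 (hf w J) := by
  induction n with
  | zero => intro J _ _ U hU; exact absurd hU (Nat.not_lt_zero _)
  | succ n ih =>
    refine devissage _ ?_ ?_
    · intro J hJ f γ hf' H1 H2 hm U hU he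
      rw [hf_add hw hf' hJ]
      obtain ⟨m, hm⟩ := hm
      refine (H1 ⟨m, Submodule.mem_sup_left hm⟩ U hU fun j hj => ?_).add
        ((H2 ⟨m, le_cl J f hm⟩ U hU fun j hj => ?_).act _)
      · obtain ⟨e, he⟩ := he j hj
        exact ⟨e, Submodule.mem_sup_left he⟩
      · obtain ⟨e, he⟩ := he j hj
        exact ⟨e, le_cl J f he⟩
    · intro J hJ hgp _ hm U hU he
      by_cases htop : (1 : MvPolynomial (ι ⊕ Θ) k) ∈ J
      · rw [(Ideal.eq_top_iff_one J).2 htop, hf_top]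
        exact In.zero
      obtain ⟨m, hm⟩ := hm
      have hs : sec k τ ∈ J := hgp.of_pow (sec_hom hq) m hm
      have he' : ∀ j, j ∉ U → xm k τ j ∈ J := fun j hj => by
        obtain ⟨e, he⟩ := he j hj
        exact hgp.of_pow (xm_hom w τ j) e he
      by_cases hall : ∀ j, xm k τ j ∈ J
      · -- the prime ideal contains all the monomials
        have hdec : DecidablePred fun p : ι => (X (Sum.inl p) : MvPolynomial (ι ⊕ Θ) k) ∈ J :=
          Classical.decPred _
        let Z : Finset ι := Finset.univ.filter fun p =>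
          (X (Sum.inl p) : MvPolynomial (ι ⊕ Θ) k) ∈ J
        have hZ1 : ∀ j, ¬ Disjoint (τ j) Z := by
          intro j
          obtain ⟨p, hp, hpJ⟩ := hgp.of_prod htop (τ j) (fun p => X (Sum.inl p))
            (fun p => w (Sum.inl p)) (fun p => isWeightedHomogeneous_X k w (Sum.inl p)) (hall j)
          exact Finset.not_disjoint_iff.2 ⟨p, hp, Finset.mem_filter.2 ⟨Finset.mem_univ _, hpJ⟩⟩
        obtain ⟨L, _, hL⟩ := serre hw J hJ (Z.map Function.Embedding.inl) (by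
          intro v hv
          obtain ⟨p, hp, rfl⟩ := Finset.mem_map.1 hv
          exact (Finset.mem_filter.1 hp).2)
        refine ⟨(∏ p ∈ Z, (1 - ee (w (Sum.inl p)))) * L, 𝔞.mul_mem_right _ (hZ Z hZ1), ?_⟩
        rw [T_mul, ← hL, ← T_mul]
        congr 2
        have e1 : (∏ p ∈ Z, (1 - ee (w (Sum.inl p)))) =
            ∏ v ∈ Z.map (Function.Embedding.inl : ι ↪ ι ⊕ Θ), (1 - ee (w v)) := by
          rw [Finset.prod_map]
          rfl
        rw [e1, Finset.prod_mul_prod_compl]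
      · -- elimination of the variable `q_j`
        push Not at hall
        obtain ⟨j0, hj0⟩ := hall
        obtain ⟨r, hr, hsr⟩ := sec_split (k := k) τ j0
        have hx := xm_supp (k := k) τ j0 j0
        have hxJ : cl J (xm k τ j0) = J := hgp _ _ (xm_hom w τ j0) hj0
        have hjU : j0 ∈ U := by
          by_contra h
          exact hj0 (he' j0 h)
        have hJ0 : Hg w (J0 (Sum.inr j0 : ι ⊕ Θ) J) := hg_J0 hJ
        have hreg : cl (J0 (Sum.inr j0 : ι ⊕ Θ) J) (sec k τ) = J0 (Sum.inr j0 : ι ⊕ Θ) J := by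
          rw [hsr]
          exact cl_J0 hx hr hxJ
        refine climb hw (N := J0 (Sum.inr j0 : ι ⊕ Θ) J ⊔ Ideal.span {sec k τ})
          (hJ0.adj (sec_hom hq)) hJ (sup_le (J0_le J) ((Ideal.span_singleton_le_iff_mem _).2 hs))
          ?_ ?_
        · rw [← hf_reg hw (sec_hom hq) hJ0 hreg]
          obtain ⟨L, _, hL⟩ := serre hw _ hJ0 ∅ (by simp)
          refine ⟨(1 - ee q) * L, 𝔞.mul_mem_right _ h1, ?_⟩
          rw [← T_mul, mul_comm, T_mul, T_mul]
          rw [Finset.compl_empty] at hL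
          rw [hL]
        · intro N' hN1 hN2 hN3 f hf1 γ hf2
          refine ih _ (hN3.cl hf2) ⟨1, le_cl _ _ (hN1 (Submodule.mem_sup_right
            (by rw [pow_one]; exact Ideal.mem_span_singleton_self _)))⟩ (U.erase j0)
            (by rw [Finset.card_erase_of_mem hjU]; have := Finset.card_pos.2 ⟨j0, hjU⟩; omega) ?_
          intro j hj
          by_cases hjj : j = j0
          · subst hjj
            obtain ⟨e, he⟩ := mem_red hx hr (by rw [← hsr]; exact hs) hf1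
            refine ⟨e, ?_⟩
            rw [mem_cl]
            rw [← hsr] at he
            exact hN1 he
          · refine ⟨1, le_cl _ _ (hN1 (Submodule.mem_sup_left ?_))⟩
            rw [pow_one]
            refine Ideal.subset_span ⟨he' j fun h => hj (Finset.mem_erase.2 ⟨hjj, h⟩), ?_⟩
            exact xm_supp τ j0 j

/-- **linkK** -/
theorem linkK (hw : Fin' w) {q : Γ} (hq : ∀ j, w (Sum.inr j) + ∑ p ∈ τ j, w (Sum.inl p) = q)
    (𝔞 : Ideal (AddMonoidAlgebra ℤ Γ)) (h1 : 1 - ee q ∈ 𝔞)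
    (hZ : ∀ Z : Finset ι, (∀ j, ¬ Disjoint (τ j) Z) → ∏ p ∈ Z, (1 - ee (w (Sum.inl p))) ∈ 𝔞)
    {S : Type*} [Fintype S] (g : S → MvPolynomial (ι ⊕ Θ) k) (u : S → Γ)
    (hg : ∀ a, IsWeightedHomogeneous w (g a) (u a))
    (hs : sec k τ ∈ (Ideal.span (Set.range g)).radical) : ∏ a, (1 - ee (u a)) ∈ 𝔞 := by
  classical
  obtain ⟨m, hm⟩ := hs
  obtain ⟨L, hL, e⟩ := koszul hw g u hg (∏ v, (1 - ee (w v))) 𝔞 (fun J hJ hgJ =>
    star hw hq 𝔞 h1 hZ _ J hJ ⟨m, (Ideal.span_le.2 (by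
      rintro _ ⟨a, rfl⟩
      exact hgJ a)) hm⟩ Finset.univ (Nat.lt_succ_self _) (fun j hj => absurd (Finset.mem_univ j) hj))
    ⊥ hg_bot ∅ (by simp)
  rw [Finset.compl_empty, T_mul, hf_bot hw] at e
  rwa [T_dl_injective e]

end main

end Vale.Agent.P291.L2K
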