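import Vale.Agent.P291.H564.HomCount

/-!
# P291, stage 2, N4: counting nilpotent endomorphisms with given ranks
-/

set_option linter.unusedSectionVars false

open Module LinearMap

namespace Vale.Agent.P291.H564

section surj

variable {K : Type*} [Field K] [Fintype K]

/-- `#` injective linear maps `K^s → K^c`, `s ≤ c` -/
noncomputable def li (q c s : ℕ) : ℕ := ∏ i : Fin s, (q ^ c - q ^ (i : ℕ))

theorem card_inj {C V : Type*} [AddCommGroup C] [Module K C] [FiniteDimensional K C]
    [AddCommGroup V] [Module K V] [FiniteDimensional K V] (h : finrank K C ≤ finrank K V) :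
    Nat.card {φ : C →ₗ[K] V // Function.Injective φ} =
      li (Fintype.card K) (finrank K V) (finrank K C) := by
  have : Finite V := Module.finite_of_finite K
  rw [li, ← card_linearIndependent h]
  let b := Module.finBasis K C
  refine Nat.card_congr ((b.constr K).symm.toEquiv.subtypeEquiv fun φ => ?_)
  rw [← LinearMap.ker_eq_bot]
  constructor
  · intro hφ
    exact b.linearIndependent.map' φ hφ
  · intro hφ
    rw [LinearMap.ker_eq_bot']
    intro c hc
    have h2 : ∑ i, b.repr c i • φ (b i) = 0 := by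
      rw [← hc]
      conv_rhs => rw [← b.sum_repr c]
      rw [map_sum]
      simp
    have h3 := Fintype.linearIndependent_iff.1 hφ (fun i => b.repr c i) h2
    exact b.ext_elem fun i => by rw [h3 i]; simp

theorem dualMap_bij {C V : Type*} [AddCommGroup C] [Module K C] [FiniteDimensional K C]
    [AddCommGroup V] [Module K V] [FiniteDimensional K V] :
    Function.Bijective (fun f : C →ₗ[K] V => f.dualMap) := by
  have hinj : Function.Injective (fun f : C →ₗ[K] V => f.dualMap) := by
    intro f g h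
    ext c
    rw [← sub_eq_zero, ← Module.forall_dual_apply_eq_zero_iff K]
    intro φ
    have := LinearMap.congr_fun (LinearMap.congr_fun h φ) c
    rw [map_sub, sub_eq_zero]
    exact this
  have : Finite (C →ₗ[K] V) := Module.finite_of_finite K
  have : Finite (Dual K V →ₗ[K] Dual K C) := Module.finite_of_finite K
  have := Fintype.ofFinite (C →ₗ[K] V)
  have := Fintype.ofFinite (Dual K V →ₗ[K] Dual K C)
  refine (Fintype.bijective_iff_injective_and_card _).2 ⟨hinj, ?_⟩
  rw [Module.card_eq_pow_finrank (K := K), Module.card_eq_pow_finrank (K := K) (V := Dual K V →ₗ[K] Dual K C),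
    Module.finrank_linearMap, Module.finrank_linearMap, Subspace.dual_finrank_eq,
    Subspace.dual_finrank_eq, mul_comm]

theorem card_surj {C V : Type*} [AddCommGroup C] [Module K C] [FiniteDimensional K C]
    [AddCommGroup V] [Module K V] [FiniteDimensional K V] (h : finrank K V ≤ finrank K C) :
    Nat.card {φ : C →ₗ[K] V // Function.Surjective φ} =
      li (Fintype.card K) (finrank K C) (finrank K V) := by
  have h1 := card_inj (K := K) (C := Dual K V) (V := Dual K C)
    (by rw [Subspace.dual_finrank_eq, Subspace.dual_finrank_eq]; exact h)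
  rw [Subspace.dual_finrank_eq, Subspace.dual_finrank_eq] at h1
  rw [← h1]
  refine Nat.card_congr ((Equiv.ofBijective _ (dualMap_bij (K := K) (C := C) (V := V))).subtypeEquiv
    fun φ => ?_)
  exact (LinearMap.dualMap_injective_iff (f := φ)).symm

/-- fibres of a surjective linear map -/
theorem card_fiber {A B : Type*} [AddCommGroup A] [Module K A] [AddCommGroup B] [Module K B]
    (Φ : A →ₗ[K] B) (hΦ : Function.Surjective Φ) (P : B → Prop) :
    Nat.card {a // P (Φ a)} = Nat.card (LinearMap.ker Φ) * Nat.card {b // P b} := by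
  obtain ⟨s, hs⟩ := LinearMap.exists_rightInverse_of_surjective Φ (LinearMap.range_eq_top.2 hΦ)
  have hs' : ∀ b, Φ (s b) = b := fun b => LinearMap.congr_fun hs b
  rw [← Nat.card_prod]
  refine Nat.card_congr
    { toFun := fun a => (⟨(a : A) - s (Φ a), by rw [LinearMap.mem_ker, map_sub, hs', sub_self]⟩,
        ⟨Φ a, a.2⟩)
      invFun := fun p => ⟨(p.1 : A) + s p.2, by
        rw [map_add, LinearMap.mem_ker.1 p.1.2, hs', zero_add]; exact p.2.2⟩
      left_inv := fun a => by apply Subtype.ext; simp
      right_inv := fun p => by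
        obtain ⟨⟨k, hk⟩, ⟨b, hb⟩⟩ := p
        have hk' : Φ k = 0 := hk
        simp [hk', hs'] }

/-- extensions of an endomorphism -/
theorem card_ext {V : Type*} [AddCommGroup V] [Module K V] [FiniteDimensional K V]
    (W : Submodule K V) (η : End K W) (h : lam η 0 ≤ finrank K V - finrank K W) :
    Nat.card {ξ : End K V // range ξ = W ∧ ∀ w : W, ξ w = η w} =
      Fintype.card K ^ ((finrank K V - finrank K W) * rk η 1) *
        li (Fintype.card K) (finrank K V - finrank K W) (lam η 0) := by
  obtain ⟨C, hC⟩ := Submodule.exists_isCompl W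
  have hdim : finrank K C = finrank K V - finrank K W := by
    have := Submodule.finrank_add_eq_of_isCompl hC
    omega
  -- reduce to maps on the complement
  have e1 : Nat.card {ξ : End K V // range ξ = W ∧ ∀ w : W, ξ w = η w} =
      Nat.card {φ : C →ₗ[K] W // Function.Surjective ((range η).mkQ ∘ₗ φ)} := by
    refine Nat.card_congr
      { toFun := fun ξ => ⟨(ξ.1 ∘ₗ C.subtype).codRestrict W (fun c =>
            le_of_eq ξ.2.1 (mem_range_self ξ.1 (C.subtype c))), ?_⟩
        invFun := fun φ => ⟨W.subtype ∘ₗ LinearMap.ofIsCompl hC η φ.1, ?_, ?_⟩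
        left_inv := ?_
        right_inv := ?_ }
    · intro y
      obtain ⟨w, rfl⟩ := (range η).mkQ_surjective y
      have hw : (w : V) ∈ range ξ.1 := by rw [ξ.2.1]; exact w.2
      obtain ⟨v, hv⟩ := hw
      have hv' : v ∈ W ⊔ C := by rw [hC.sup_eq_top]; exact Submodule.mem_top
      obtain ⟨a, ha, c, hc, rfl⟩ := Submodule.mem_sup.1 hv'
      refine ⟨⟨c, hc⟩, ?_⟩
      rw [LinearMap.comp_apply, Submodule.mkQ_apply, Submodule.mkQ_apply,
        Submodule.Quotient.eq]
      refine ⟨-⟨a, ha⟩, ?_⟩
      apply Subtype.ext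
      rw [map_neg, Submodule.coe_neg, ← ξ.2.2 ⟨a, ha⟩, Submodule.coe_sub, ← hv, map_add]
      change -(ξ.1 a) = ξ.1 c - (ξ.1 a + ξ.1 c)
      abel
    · have hsurj : Function.Surjective (LinearMap.ofIsCompl hC η φ.1) := by
        intro w
        obtain ⟨c, hc⟩ := φ.2 ((range η).mkQ w)
        rw [LinearMap.comp_apply, Submodule.mkQ_apply, Submodule.mkQ_apply,
          Submodule.Quotient.eq] at hc
        obtain ⟨a, ha⟩ := hc
        refine ⟨-a + c, ?_⟩
        rw [map_add, map_neg, LinearMap.ofIsCompl_apply_left, LinearMap.ofIsCompl_apply_right, ha]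
        abel
      rw [LinearMap.range_comp, LinearMap.range_eq_top.2 hsurj, Submodule.map_top,
        Submodule.range_subtype]
    · intro w
      rw [LinearMap.comp_apply, LinearMap.ofIsCompl_apply_left]
      rfl
    · intro ξ
      apply Subtype.ext
      apply LinearMap.ext
      intro v
      have hv' : v ∈ W ⊔ C := by rw [hC.sup_eq_top]; exact Submodule.mem_top
      obtain ⟨a, ha, c, hc, rfl⟩ := Submodule.mem_sup.1 hv'
      rw [map_add, map_add]
      congr 1
      · have h1 := LinearMap.ofIsCompl_apply_left hC (φ := η)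
          (ψ := (ξ.1 ∘ₗ C.subtype).codRestrict W (fun c =>
            le_of_eq ξ.2.1 (mem_range_self ξ.1 (C.subtype c)))) ⟨a, ha⟩
        rw [LinearMap.comp_apply]
        simp only at h1
        rw [h1]
        exact (ξ.2.2 ⟨a, ha⟩).symm
      · have h1 := LinearMap.ofIsCompl_apply_right hC (φ := η)
          (ψ := (ξ.1 ∘ₗ C.subtype).codRestrict W (fun c =>
            le_of_eq ξ.2.1 (mem_range_self ξ.1 (C.subtype c)))) ⟨c, hc⟩
        rw [LinearMap.comp_apply]
        simp only at h1
        rw [h1]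
        rfl
    · intro φ
      apply Subtype.ext
      apply LinearMap.ext
      intro c
      apply Subtype.ext
      exact congrArg Subtype.val (LinearMap.ofIsCompl_apply_right hC c)
  let Φ : (C →ₗ[K] W) →ₗ[K] (C →ₗ[K] W ⧸ range η) :=
    { toFun := fun φ => (range η).mkQ ∘ₗ φ
      map_add' := fun a b => by rw [comp_add]
      map_smul' := fun c a => by rw [comp_smul]; rfl }
  have hΦ : Function.Surjective Φ := by
    intro ψ
    obtain ⟨s, hs⟩ := LinearMap.exists_rightInverse_of_surjective (range η).mkQ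
      (range η).range_mkQ
    refine ⟨s ∘ₗ ψ, ?_⟩
    change (range η).mkQ ∘ₗ (s ∘ₗ ψ) = ψ
    rw [← comp_assoc, hs, id_comp]
  have e2 := card_fiber Φ hΦ (fun ψ => Function.Surjective ψ)
  have hk : finrank K (LinearMap.ker Φ) = (finrank K V - finrank K W) * rk η 1 := by
    have h1 := LinearMap.finrank_range_add_finrank_ker Φ
    rw [LinearMap.range_eq_top.2 hΦ, finrank_top, Module.finrank_linearMap,
      Module.finrank_linearMap, finrank_quot_range, hdim] at h1
    have h2 : lam η 0 + rk η 1 = finrank K W := by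
      have := rk_anti η (Nat.zero_le 1)
      rw [lam, zero_add, ← rk_zero η]
      omega
    have h3 : (finrank K V - finrank K W) * finrank K W =
        (finrank K V - finrank K W) * lam η 0 + (finrank K V - finrank K W) * rk η 1 := by
      rw [← mul_add, h2]
    rw [h3] at h1
    omega
  have hcard : Nat.card (LinearMap.ker Φ) =
      Fintype.card K ^ ((finrank K V - finrank K W) * rk η 1) := by
    rw [← hk]
    have : Finite (LinearMap.ker Φ) := Module.finite_of_finite K
    have := Fintype.ofFinite (LinearMap.ker Φ)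
    rw [Nat.card_eq_fintype_card, Module.card_eq_pow_finrank (K := K)]
  rw [e1]
  refine e2.trans ?_
  rw [hcard, card_surj (by rw [finrank_quot_range, hdim]; exact h), finrank_quot_range, hdim]

/-- counting subspaces -/
theorem card_subspace {V : Type*} [AddCommGroup V] [Module K V] [FiniteDimensional K V]
    (w : ℕ) (hw : w ≤ finrank K V) :
    Nat.card {W : Submodule K V // finrank K W = w} * li (Fintype.card K) w w =
      li (Fintype.card K) (finrank K V) w := by
  have hfinV : Finite V := Module.finite_of_finite K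
  have hfin : Finite {W : Submodule K V // finrank K W = w} := inferInstance
  have h1 := card_inj (K := K) (C := Fin w → K) (V := V) (by rw [Module.finrank_fin_fun]; exact hw)
  rw [Module.finrank_fin_fun] at h1
  rw [← h1]
  have e : {φ : (Fin w → K) →ₗ[K] V // Function.Injective φ} ≃
      Σ W : {W : Submodule K V // finrank K W = w},
        {ψ : (Fin w → K) →ₗ[K] W.1 // Function.Injective ψ} :=
    { toFun := fun φ => ⟨⟨range φ.1, by
          rw [LinearMap.finrank_range_of_inj φ.2, Module.finrank_fin_fun]⟩,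
        ⟨φ.1.rangeRestrict, by
          intro a b hab
          exact φ.2 (congrArg Subtype.val hab)⟩⟩
      invFun := fun p => ⟨p.1.1.subtype ∘ₗ p.2.1, by
          rw [LinearMap.coe_comp]
          exact (Submodule.injective_subtype _).comp p.2.2⟩
      left_inv := fun φ => by
        apply Subtype.ext
        rfl
      right_inv := by
        rintro ⟨⟨W, hW⟩, ⟨ψ, hψ⟩⟩
        have hs : Function.Surjective ψ := by
          refine (LinearMap.injective_iff_surjective_of_finrank_eq_finrank ?_).1 hψ
          rw [Module.finrank_fin_fun, hW]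
        have hr : range (W.subtype ∘ₗ ψ) = W := by
          rw [LinearMap.range_comp, LinearMap.range_eq_top.2 hs, Submodule.map_top,
            Submodule.range_subtype]
        have key : ∀ (U : Submodule K V) (hU : finrank K U = w) (ψ' : (Fin w → K) →ₗ[K] U)
            (hψ' : Function.Injective ψ') (_ : U = W) (_ : ∀ x, (ψ' x : V) = ψ x),
            (⟨⟨U, hU⟩, ⟨ψ', hψ'⟩⟩ : Σ W : {W : Submodule K V // finrank K W = w},
              {ψ : (Fin w → K) →ₗ[K] W.1 // Function.Injective ψ}) = ⟨⟨W, hW⟩, ⟨ψ, hψ⟩⟩ := by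
          intro U hU ψ' hψ' h1 h2
          subst h1
          have : ψ' = ψ := LinearMap.ext fun x => Subtype.ext (h2 x)
          subst this
          rfl
        exact key _ _ _ _ hr fun x => rfl }
  have := Fintype.ofFinite {W : Submodule K V // finrank K W = w}
  have hfin2 : ∀ W : {W : Submodule K V // finrank K W = w},
      Finite {ψ : (Fin w → K) →ₗ[K] W.1 // Function.Injective ψ} := fun W => by
    have : Finite ((Fin w → K) →ₗ[K] W.1) := Module.finite_of_finite K
    infer_instance
  rw [Nat.card_congr e, Nat.card_sigma]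
  have h2 : ∀ W : {W : Submodule K V // finrank K W = w},
      Nat.card {ψ : (Fin w → K) →ₗ[K] W.1 // Function.Injective ψ} = li (Fintype.card K) w w := by
    intro W
    have := card_inj (K := K) (C := Fin w → K) (V := W.1)
      (by rw [Module.finrank_fin_fun, W.2])
    rw [Module.finrank_fin_fun, W.2] at this
    exact this
  rw [Finset.sum_congr rfl fun W _ => h2 W, Finset.sum_const,
    Finset.card_univ, Nat.card_eq_fintype_card, smul_eq_mul]

/-- the recursion for endomorphisms with prescribed ranks -/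
noncomputable def NN (K V : Type*) [Field K] [AddCommGroup V] [Module K V] (r : ℕ → ℕ) : ℕ :=
  Nat.card {ξ : End K V // ∀ j, rk ξ j = r j}

theorem eq_res {V : Type*} [AddCommGroup V] [Module K V] (ξ : End K V) (W : Submodule K V)
    (η : End K W) (h1 : range ξ = W) (h2 : ∀ w : W, ξ w = η w) (j : ℕ) :
    rk ξ (j + 1) = rk η j := by
  subst h1
  have : η = res ξ := LinearMap.ext fun w => Subtype.ext (h2 w).symm
  rw [this, rk_res]

theorem NN_rec {V : Type*} [AddCommGroup V] [Module K V] [FiniteDimensional K V]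
    (r : ℕ → ℕ) (h0 : r 0 = finrank K V) (m : ℕ)
    (hm : ∀ W : Submodule K V, finrank K W = r 1 → NN K W (fun j => r (j + 1)) = m)
    (hr2 : r 1 - r 2 ≤ r 0 - r 1) :
    NN K V r = Nat.card {W : Submodule K V // finrank K W = r 1} * (m *
      (Fintype.card K ^ ((r 0 - r 1) * r 2) * li (Fintype.card K) (r 0 - r 1) (r 1 - r 2))) := by
  have hfinV : Finite V := Module.finite_of_finite K
  have e : {ξ : End K V // ∀ j, rk ξ j = r j} ≃
      Σ W : {W : Submodule K V // finrank K W = r 1},
        Σ η : {η : End K W.1 // ∀ j, rk η j = r (j + 1)},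
          {ξ : End K V // range ξ = W.1 ∧ ∀ w : W.1, ξ w = η.1 w} :=
    { toFun := fun ξ => ⟨⟨range ξ.1, by rw [← ξ.2 1, rk, pow_one]⟩,
        ⟨res ξ.1, fun j => by rw [rk_res, ξ.2]⟩, ⟨ξ.1, rfl, fun w => rfl⟩⟩
      invFun := fun p => ⟨p.2.2.1, fun j => by
        cases j with
        | zero => rw [rk_zero, h0]
        | succ j => rw [eq_res p.2.2.1 p.1.1 p.2.1.1 p.2.2.2.1 p.2.2.2.2, p.2.1.2]⟩
      left_inv := fun ξ => rfl
      right_inv := by
        rintro ⟨⟨W, hW⟩, ⟨η, hη⟩, ⟨ξ, h1, h2⟩⟩
        simp only at h1 h2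
        subst h1
        have : η = res ξ := LinearMap.ext fun w => Subtype.ext (h2 w).symm
        subst this
        rfl }
  have := Fintype.ofFinite {W : Submodule K V // finrank K W = r 1}
  have hf0 : Finite (End K V) := Module.finite_of_finite K
  have hf1 : ∀ W : {W : Submodule K V // finrank K W = r 1}, Finite (End K W.1) := fun W =>
    Module.finite_of_finite K
  rw [NN, Nat.card_congr e, Nat.card_sigma]
  have h2 : ∀ W : {W : Submodule K V // finrank K W = r 1},
      Nat.card (Σ η : {η : End K W.1 // ∀ j, rk η j = r (j + 1)},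
          {ξ : End K V // range ξ = W.1 ∧ ∀ w : W.1, ξ w = η.1 w}) =
        m * (Fintype.card K ^ ((r 0 - r 1) * r 2) *
          li (Fintype.card K) (r 0 - r 1) (r 1 - r 2)) := by
    intro W
    have hf2 := hf1 W
    have := Fintype.ofFinite {η : End K W.1 // ∀ j, rk η j = r (j + 1)}
    rw [Nat.card_sigma]
    have h3 : ∀ η : {η : End K W.1 // ∀ j, rk η j = r (j + 1)},
        Nat.card {ξ : End K V // range ξ = W.1 ∧ ∀ w : W.1, ξ w = η.1 w} =
          (Fintype.card K ^ ((r 0 - r 1) * r 2) *
            li (Fintype.card K) (r 0 - r 1) (r 1 - r 2)) := by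
      intro η
      have hl : lam η.1 0 = r 1 - r 2 := by
        rw [lam, η.2, η.2]
      have := card_ext (K := K) W.1 η.1 (by rw [hl, W.2, ← h0]; exact hr2)
      rw [hl, W.2, ← h0, η.2 1] at this
      exact this
    rw [Finset.sum_congr rfl fun η _ => h3 η, Finset.sum_const, Finset.card_univ,
      ← Nat.card_eq_fintype_card, smul_eq_mul]
    congr 1
    exact hm W.1 W.2
  rw [Finset.sum_congr rfl fun W _ => h2 W, Finset.sum_const,
    Finset.card_univ, Nat.card_eq_fintype_card, smul_eq_mul]

end surj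

section closed

/-- `∏_{i=1}^n (1 - q^{-i})` -/
noncomputable def tt (q : ℕ) (n : ℕ) : ℚ := ∏ i ∈ Finset.range n, (1 - ((q : ℚ) ^ (i + 1))⁻¹)

theorem tt_ne_zero {q : ℕ} (hq : 1 < q) (n : ℕ) : tt q n ≠ 0 := by
  rw [tt, Finset.prod_ne_zero_iff]
  intro i _
  have h1 : (1 : ℚ) < (q : ℚ) ^ (i + 1) := one_lt_pow₀ (by exact_mod_cast hq) (Nat.succ_ne_zero _)
  have h2 : ((q : ℚ) ^ (i + 1))⁻¹ < 1 := inv_lt_one_of_one_lt₀ h1
  linarith

theorem li_cast {q : ℕ} (hq : 1 < q) (c s : ℕ) (h : s ≤ c) :
    (li q c s : ℚ) * tt q (c - s) = (q : ℚ) ^ (c * s) * tt q c := by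
  induction s with
  | zero => simp [li]
  | succ s ih =>
    have hq0 : (q : ℚ) ≠ 0 := by positivity
    have h1 := ih (by omega)
    have h2 : (li q c (s + 1) : ℚ) = li q c s * ((q : ℚ) ^ c - q ^ s) := by
      rw [li, Fin.prod_univ_castSucc, Nat.cast_mul]
      congr 1
      rw [Fin.val_last, Nat.cast_sub (Nat.pow_le_pow_right (by omega) (by omega))]
      push_cast
      rfl
    have h3 : tt q (c - s) = tt q (c - (s + 1)) * (1 - ((q : ℚ) ^ (c - s))⁻¹) := by
      have : c - s = (c - (s + 1)) + 1 := by omega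
      rw [tt, this, Finset.prod_range_succ, tt]
    have h4 : ((q : ℚ) ^ c - q ^ s) = q ^ c * (1 - ((q : ℚ) ^ (c - s))⁻¹) := by
      have : (q : ℚ) ^ c = q ^ (c - s) * q ^ s := by rw [← pow_add]; congr 1; omega
      rw [this]
      field_simp
    rw [h2, h4]
    rw [h3] at h1
    rw [Nat.mul_succ, pow_add]
    linear_combination ((q : ℚ) ^ c) * h1

/-- `q^{Σ λ_j²} ∏ tt(λ_j - λ_{j+1})` -/
noncomputable def aa (q N : ℕ) (l : ℕ → ℕ) : ℚ :=
  (q : ℚ) ^ (∑ j ∈ Finset.range N, l j ^ 2) * ∏ j ∈ Finset.range N, tt q (l j - l (j + 1))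

theorem aa_succ (q N : ℕ) (l : ℕ → ℕ) :
    aa q (N + 1) l = (q : ℚ) ^ (l 0 ^ 2) * tt q (l 0 - l 1) * aa q N (fun j => l (j + 1)) := by
  rw [aa, aa, Finset.sum_range_succ', Finset.prod_range_succ', pow_add]
  ring

theorem aa_ne_zero {q : ℕ} (hq : 1 < q) (N : ℕ) (l : ℕ → ℕ) : aa q N l ≠ 0 := by
  rw [aa]
  have : (q : ℚ) ≠ 0 := by positivity
  exact mul_ne_zero (pow_ne_zero _ this) (Finset.prod_ne_zero_iff.2 fun i _ => tt_ne_zero hq _)

theorem li_ne_zero {q : ℕ} (hq : 1 < q) (c s : ℕ) (h : s ≤ c) : li q c s ≠ 0 := by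
  rw [li, Finset.prod_ne_zero_iff]
  intro i _
  have h1 : q ^ (i : ℕ) < q ^ c := Nat.pow_lt_pow_right hq (by omega)
  omega

theorem NN_closed {K : Type*} [Field K] [Fintype K] (N : ℕ) : ∀ {V : Type*} [AddCommGroup V]
    [Module K V] [FiniteDimensional K V] (r : ℕ → ℕ), r 0 = finrank K V →
    (∀ j, r (j + 1) ≤ r j) → (∀ j, r (j + 1) - r (j + 2) ≤ r j - r (j + 1)) → r N = 0 →
    (NN K V r : ℚ) * aa (Fintype.card K) N (fun j => r j - r (j + 1)) =
      (Fintype.card K : ℚ) ^ (r 0 ^ 2) * tt (Fintype.card K) (r 0) := by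
  have hq : 1 < Fintype.card K := Fintype.one_lt_card
  have hq0 : (Fintype.card K : ℚ) ≠ 0 := by positivity
  induction N with
  | zero =>
    intro V _ _ _ r h0 h1 _ hN
    have hV : Subsingleton V := finrank_zero_iff.1 (h0.symm.trans hN)
    have hr : ∀ j, r j = 0 := fun j => by
      induction j with
      | zero => exact hN
      | succ j ih => have := h1 j; omega
    have h2 : NN K V r = 1 := by
      rw [NN, Nat.card_eq_one_iff_unique]
      refine ⟨⟨fun a b => Subtype.ext (Subsingleton.elim _ _)⟩, ⟨⟨0, fun j => ?_⟩⟩⟩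
      rw [hr, rk]
      exact finrank_zero_of_subsingleton
    rw [h2, hr 0]
    simp [aa, tt]
  | succ N ih =>
    intro V _ _ _ r h0 h1 h2 hN
    set q := Fintype.card K with hqdef
    have hle : r 1 ≤ finrank K V := h0 ▸ h1 0
    have hS := card_subspace (K := K) (V := V) (r 1) hle
    rw [← hqdef, ← h0] at hS
    have hne : Nat.card {W : Submodule K V // finrank K W = r 1} ≠ 0 := by
      intro h
      rw [h, zero_mul] at hS
      exact li_ne_zero hq _ _ (h1 0) hS.symm
    have hnonempty : Nonempty {W : Submodule K V // finrank K W = r 1} := by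
      by_contra hc
      rw [not_nonempty_iff] at hc
      exact hne Nat.card_of_isEmpty
    obtain ⟨W0, hW0⟩ := hnonempty
    have hW : ∀ W : Submodule K V, finrank K W = r 1 →
        (NN K W (fun j => r (j + 1)) : ℚ) * aa q N (fun j => r (j + 1) - r (j + 2)) =
          (q : ℚ) ^ (r 1 ^ 2) * tt q (r 1) := fun W hW =>
      ih (fun j => r (j + 1)) hW.symm (fun j => h1 (j + 1)) (fun j => h2 (j + 1)) hN
    have hrec := NN_rec (K := K) r h0 (NN K W0 (fun j => r (j + 1))) (fun W hW' => by
      have e1 := hW W hW'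
      have e2 := hW W0 hW0
      rw [← e2] at e1
      exact_mod_cast mul_right_cancel₀ (aa_ne_zero hq N _) e1) (h2 0)
    rw [hrec, aa_succ]
    have e2 := hW W0 hW0
    have e3 := li_cast hq (r 0) (r 1) (h1 0)
    have e4 := li_cast hq (r 1) (r 1) le_rfl
    have e5 := li_cast hq (r 0 - r 1) (r 1 - r 2) (h2 0)
    have e6 : (Nat.card {W : Submodule K V // finrank K W = r 1} : ℚ) * li q (r 1) (r 1) =
      li q (r 0) (r 1) := by exact_mod_cast hS
    rw [Nat.sub_self, show tt q 0 = 1 from by simp [tt], mul_one] at e4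
    push_cast
    rw [← hqdef]
    set S : ℚ := (Nat.card {W : Submodule K V // finrank K W = r 1} : ℚ)
    set m : ℚ := (NN K W0 (fun j => r (j + 1)) : ℚ)
    set A : ℚ := aa q N (fun j => r (j + 1) - r (j + 2))
    have ex1 : (q : ℚ) ^ (r 0 ^ 2) = (q : ℚ) ^ (r 0 * r 1) * (q : ℚ) ^ ((r 0 - r 1) * r 2) *
        (q : ℚ) ^ ((r 0 - r 1) ^ 2) * (q : ℚ) ^ ((r 0 - r 1) * (r 1 - r 2)) := by
      rw [← pow_add, ← pow_add, ← pow_add]
      congr 1
      obtain ⟨a, ha⟩ := Nat.exists_eq_add_of_le (h1 0)
      obtain ⟨b, hb⟩ := Nat.exists_eq_add_of_le (h1 1)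
      have hb' : r 1 = r 2 + b := hb
      have ha' : r 0 = r 1 + a := ha
      have s1 : r 0 - r 1 = a := by omega
      have s2 : r 1 - r 2 = b := by omega
      rw [s1, s2, ha']
      nlinarith [hb']
    rw [ex1]
    calc S * (m * ((q : ℚ) ^ ((r 0 - r 1) * r 2) * (li q (r 0 - r 1) (r 1 - r 2) : ℚ))) *
          ((q : ℚ) ^ ((r 0 - r 1) ^ 2) * tt q (r 0 - r 1 - (r 1 - r 2)) * A)
        = S * (m * A) * (q : ℚ) ^ ((r 0 - r 1) * r 2) * (q : ℚ) ^ ((r 0 - r 1) ^ 2) *
          ((li q (r 0 - r 1) (r 1 - r 2) : ℚ) * tt q (r 0 - r 1 - (r 1 - r 2))) := by ring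
      _ = (S * li q (r 1) (r 1)) * tt q (r 0 - r 1) * (q : ℚ) ^ ((r 0 - r 1) * r 2) *
          (q : ℚ) ^ ((r 0 - r 1) ^ 2) * (q : ℚ) ^ ((r 0 - r 1) * (r 1 - r 2)) := by
          rw [e2, e5, e4]; ring
      _ = _ := by rw [e6, e3]; ring

end closed

end Vale.Agent.P291.H564
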