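import Vale.Agent.P291.H564.Types

/-!
# P291, stage 2, N4: the sum over Jordan types
-/

set_option linter.unusedSectionVars false

open Module LinearMap

namespace Vale.Agent.P291.H564

variable {K I E : Type*} [Field K] [Fintype K] [Fintype I] [DecidableEq I] [Fintype E]
variable {U : I → Type*} [∀ i, AddCommGroup (U i)] [∀ i, Module K (U i)]
  [∀ i, FiniteDimensional K (U i)]

/-- tuples of endomorphisms of given types -/
theorem card_types (n : I → ℕ) (hn : ∀ i, finrank K (U i) = n i)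
    (p : ∀ i, (n i).Partition) :
    (Nat.card {ξ : ∀ i, End K (U i) // ∀ i, lam (ξ i) = pl (p i)} : ℚ) =
      ∏ i, (gl (Fintype.card K) (n i) / ap (Fintype.card K) (p i)) := by
  have hq : 1 < Fintype.card K := Fintype.one_lt_card
  have e : {ξ : ∀ i, End K (U i) // ∀ i, lam (ξ i) = pl (p i)} ≃
      ∀ i, {f : End K (U i) // lam f = pl (p i)} :=
    Equiv.subtypePiEquivPi (p := fun i (f : End K (U i)) => lam f = pl (p i))
  rw [Nat.card_congr e, Nat.card_pi, Nat.cast_prod]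
  refine Finset.prod_congr rfl fun i _ => ?_
  exact (eq_div_iff (show ap (Fintype.card K) (p i) ≠ 0 from aa_ne_zero hq _ _)).2
    (card_type (hn i) (p i))

open scoped Classical in
/-- summation over nilpotent tuples by type -/
theorem sum_types (n : I → ℕ) (hn : ∀ i, finrank K (U i) = n i)
    [Fintype {ξ : ∀ i, End K (U i) // ∀ i, IsNilpotent (ξ i)}] (F : (I → ℕ → ℕ) → ℚ) :
    ∑ ξ : {ξ : ∀ i, End K (U i) // ∀ i, IsNilpotent (ξ i)}, F (fun i => lam (ξ.1 i)) =
      ∑ p : ∀ i, (n i).Partition,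
        (∏ i, (gl (Fintype.card K) (n i) / ap (Fintype.card K) (p i))) * F (fun i => pl (p i)) := by
  have hex : ∀ ξ : {ξ : ∀ i, End K (U i) // ∀ i, IsNilpotent (ξ i)},
      ∃ p : ∀ i, (n i).Partition, ∀ i, pl (p i) = lam (ξ.1 i) := fun ξ => by
    choose p hp using fun i => exists_type (ξ.2 i) (hn i)
    exact ⟨p, hp⟩
  choose P hP using hex
  have hmaps : ∀ ξ ∈ (Finset.univ : Finset {ξ : ∀ i, End K (U i) // ∀ i, IsNilpotent (ξ i)}),
      P ξ ∈ (Finset.univ : Finset (∀ i, (n i).Partition)) := fun ξ _ => Finset.mem_univ _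
  rw [← Finset.sum_fiberwise_of_maps_to hmaps]
  refine Finset.sum_congr rfl fun p _ => ?_
  have h1 : ∀ ξ ∈ Finset.univ.filter (fun ξ => P ξ = p), F (fun i => lam (ξ.1 i)) =
      F (fun i => pl (p i)) := by
    intro ξ hξ
    rw [Finset.mem_filter] at hξ
    congr 1
    funext i
    rw [← hP ξ i, hξ.2]
  rw [Finset.sum_congr rfl h1, Finset.sum_const, nsmul_eq_mul]
  congr 1
  rw [← card_types n hn p, ← Nat.card_eq_finsetCard]
  norm_cast
  refine Nat.card_congr
    { toFun := fun ξ => ⟨ξ.1.1, fun i => by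
        have := (Finset.mem_filter.1 ξ.2).2
        rw [← hP ξ.1 i, this]⟩
      invFun := fun ξ => ⟨⟨ξ.1, fun i => nilpotent_of_lam (hn i) (p i) (ξ.2 i).symm⟩, by
        rw [Finset.mem_filter]
        refine ⟨Finset.mem_univ _, funext fun i => ?_⟩
        apply pl_injective
        rw [hP, ξ.2 i]⟩
      left_inv := fun ξ => rfl
      right_inv := fun ξ => rfl }

/-- **the count** -/
theorem main_count (n : I → ℕ) (hn : ∀ i, finrank K (U i) = n i) (src : E → I)
    {T : E → Type*} [∀ a, AddCommGroup (T a)] [∀ a, Module K (T a)]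
    [∀ a, FiniteDimensional K (T a)] (g : (∀ i, End K (U i)) → ∀ a, End K (T a))
    (L : (I → ℕ → ℕ) → E → ℕ → ℕ)
    (hg : ∀ ξ : ∀ i, End K (U i), (∀ i, IsNilpotent (ξ i)) → ∀ a,
      lam (g ξ a) = L (fun i => lam (ξ i)) a) :
    (Nat.card {z : (∀ i, End K (U i)) × (∀ a, U (src a) →ₗ[K] T a) //
      (∀ i, IsNilpotent (z.1 i)) ∧ ∀ a, g z.1 a ∘ₗ z.2 a = z.2 a ∘ₗ z.1 (src a)} : ℚ) =
    ∑ p : ∀ i, (n i).Partition,
      (∏ i, (gl (Fintype.card K) (n i) / ap (Fintype.card K) (p i))) *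
        ∏ a, (Fintype.card K : ℚ) ^ (∑ s ∈ Finset.range (n (src a)),
          pl (p (src a)) s * L (fun i => pl (p i)) a s) := by
  classical
  have hf0 : ∀ i, Finite (End K (U i)) := fun i => Module.finite_of_finite K
  have hf1 : ∀ a, Finite (U (src a) →ₗ[K] T a) := fun a => Module.finite_of_finite K
  have e : {z : (∀ i, End K (U i)) × (∀ a, U (src a) →ₗ[K] T a) //
      (∀ i, IsNilpotent (z.1 i)) ∧ ∀ a, g z.1 a ∘ₗ z.2 a = z.2 a ∘ₗ z.1 (src a)} ≃
      Σ ξ : {ξ : ∀ i, End K (U i) // ∀ i, IsNilpotent (ξ i)},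
        ∀ a, Hm (ξ.1 (src a)) (g ξ.1 a) :=
    { toFun := fun z => ⟨⟨z.1.1, z.2.1⟩, fun a => ⟨z.1.2 a, z.2.2 a⟩⟩
      invFun := fun y => ⟨(y.1.1, fun a => (y.2 a).1), y.1.2, fun a => (y.2 a).2⟩
      left_inv := fun z => rfl
      right_inv := fun y => rfl }
  have := Fintype.ofFinite {ξ : ∀ i, End K (U i) // ∀ i, IsNilpotent (ξ i)}
  have hf2 : ∀ ξ : {ξ : ∀ i, End K (U i) // ∀ i, IsNilpotent (ξ i)},
      Finite (∀ a, Hm (ξ.1 (src a)) (g ξ.1 a)) := fun ξ => by
    have : ∀ a, Finite (Hm (ξ.1 (src a)) (g ξ.1 a)) := fun a => inferInstance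
    infer_instance
  rw [Nat.card_congr e, Nat.card_sigma, Nat.cast_sum]
  rw [← sum_types n hn (fun l => ∏ a, (Fintype.card K : ℚ) ^
    (∑ s ∈ Finset.range (n (src a)), l (src a) s * L l a s))]
  refine Finset.sum_congr rfl fun ξ _ => ?_
  rw [Nat.card_pi, Nat.cast_prod]
  refine Finset.prod_congr rfl fun a _ => ?_
  have hcard : Nat.card (Hm (ξ.1 (src a)) (g ξ.1 a)) =
      Fintype.card K ^ finrank K (Hm (ξ.1 (src a)) (g ξ.1 a)) := by
    have := Fintype.ofFinite (Hm (ξ.1 (src a)) (g ξ.1 a))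
    rw [Nat.card_eq_fintype_card, Module.card_eq_pow_finrank (K := K)]
  rw [hcard, finrank_Hm (n (src a)) _ _
    (rk_eq_zero_of_nilpotent (ξ.2 (src a)) (le_of_eq (hn (src a)))), Nat.cast_pow,
    hg ξ.1 ξ.2 a]

end Vale.Agent.P291.H564
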