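import Vale.Agent.P291.H564.NilCount

/-!
# P291, stage 2, N4: nilpotent endomorphisms by Jordan type
-/

set_option linter.unusedSectionVars false

open Module LinearMap

namespace Vale.Agent.P291.H564

section part

/-- number of parts `> s` -/
def pl {n : ℕ} (p : n.Partition) (s : ℕ) : ℕ := (p.parts.filter (s < ·)).card

theorem pl_anti {n : ℕ} (p : n.Partition) (s : ℕ) : pl p (s + 1) ≤ pl p s := by
  refine Multiset.card_le_card (Multiset.monotone_filter_right _ fun b hb => ?_)
  omega

theorem pl_zero {n : ℕ} (p : n.Partition) {s : ℕ} (hs : n ≤ s) : pl p s = 0 := by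
  rw [pl, Multiset.card_eq_zero, Multiset.filter_eq_nil]
  intro b hb
  have h1 : b ≤ n := by
    have := Multiset.single_le_sum (fun _ _ => Nat.zero_le _) b hb
    rwa [p.parts_sum] at this
  omega

theorem pl_sub {n : ℕ} (p : n.Partition) (s : ℕ) :
    pl p s = pl p (s + 1) + p.parts.count (s + 1) := by
  rw [pl, pl, Multiset.count_eq_card_filter_eq, ← Multiset.card_add]
  congr 1
  have h1 : ∀ b : ℕ, (s < b) ↔ (s + 1 < b ∨ s + 1 = b) := fun b => by omega
  have h2 : (p.parts.filter fun b => s + 1 < b ∧ s + 1 = b) = 0 := by
    rw [Multiset.filter_eq_nil]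
    intro b _ hb
    omega
  have h3 := Multiset.filter_add_filter (fun b => s + 1 < b) (fun b => s + 1 = b) p.parts
  rw [h2, add_zero] at h3
  rw [h3]
  exact Multiset.filter_congr (fun b _ => h1 b)

theorem sum_eq {m : Multiset ℕ} {n : ℕ} (h : ∀ b ∈ m, b ≤ n) :
    ∑ s ∈ Finset.range n, (m.filter (s < ·)).card = m.sum := by
  induction m using Multiset.induction_on with
  | empty => simp
  | cons a m ih =>
    have h1 : ∀ s, ((a ::ₘ m).filter (s < ·)).card = (if s < a then 1 else 0) +
        (m.filter (s < ·)).card := by
      intro s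
      by_cases hs : s < a
      · rw [Multiset.filter_cons_of_pos _ hs, Multiset.card_cons, if_pos hs, add_comm]
      · rw [Multiset.filter_cons_of_neg _ hs, if_neg hs, zero_add]
    rw [Finset.sum_congr rfl fun s _ => h1 s, Finset.sum_add_distrib,
      ih fun b hb => h b (Multiset.mem_cons_of_mem hb), Multiset.sum_cons]
    congr 1
    have ha := h a (Multiset.mem_cons_self a m)
    rw [← Finset.sum_filter, Finset.sum_const, smul_eq_mul, mul_one]
    have : (Finset.range n).filter (fun s => s < a) = Finset.range a := by
      ext s; simp; omega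
    rw [this, Finset.card_range]

theorem pl_sum {n : ℕ} (p : n.Partition) : ∑ s ∈ Finset.range n, pl p s = n := by
  have h1 : ∀ b ∈ p.parts, b ≤ n := fun b hb => by
    have := Multiset.single_le_sum (fun _ _ => Nat.zero_le _) b hb
    rwa [p.parts_sum] at this
  have := sum_eq h1
  rw [p.parts_sum] at this
  exact this

theorem pl_injective {n : ℕ} : Function.Injective (pl (n := n)) := by
  intro p p' h
  have h1 : ∀ s, p.parts.count (s + 1) = p'.parts.count (s + 1) := fun s => by
    have e1 := pl_sub p s
    have e2 := pl_sub p' s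
    rw [h] at e1
    omega
  apply Nat.Partition.ext
  ext b
  cases b with
  | zero =>
    rw [Multiset.count_eq_zero_of_notMem, Multiset.count_eq_zero_of_notMem]
    · intro hc; exact absurd (p'.parts_pos hc) (lt_irrefl 0)
    · intro hc; exact absurd (p.parts_pos hc) (lt_irrefl 0)
  | succ s => exact h1 s

/-- the partition with given numbers of parts `> s` -/
theorem exists_pl (n : ℕ) (l : ℕ → ℕ) (h1 : ∀ s, l (s + 1) ≤ l s) (h2 : ∀ s, n ≤ s → l s = 0)
    (h3 : ∑ s ∈ Finset.range n, l s = n) : ∃ p : n.Partition, pl p = l := by
  let m : Multiset ℕ := ∑ s ∈ Finset.range n, Multiset.replicate (l s - l (s + 1)) (s + 1)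
  have hm : ∀ b ∈ m, 0 < b ∧ b ≤ n := by
    intro b hb
    rw [Multiset.mem_sum] at hb
    obtain ⟨s, hs, hb⟩ := hb
    have := Multiset.eq_of_mem_replicate hb
    rw [Finset.mem_range] at hs
    omega
  have hl : ∀ s, (m.filter (s < ·)).card = l s := by
    intro s
    have e1 : (m.filter (s < ·)).card = ∑ u ∈ Finset.range n, if s ≤ u then l u - l (u + 1) else 0 := by
      rw [show m.filter (s < ·) = ∑ u ∈ Finset.range n,
        (Multiset.replicate (l u - l (u + 1)) (u + 1)).filter (s < ·) from ?_, Multiset.card_sum]
      · refine Finset.sum_congr rfl fun u _ => ?_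
        split_ifs with h
        · rw [Multiset.filter_eq_self.2, Multiset.card_replicate]
          intro b hb
          rw [Multiset.eq_of_mem_replicate hb]
          omega
        · rw [Multiset.filter_eq_nil.2, Multiset.card_zero]
          intro b hb
          rw [Multiset.eq_of_mem_replicate hb]
          omega
      · change Multiset.filter (s < ·) (∑ u ∈ Finset.range n, _) = _
        induction Finset.range n using Finset.induction_on with
        | empty => simp
        | insert a t ha ih => rw [Finset.sum_insert ha, Finset.sum_insert ha, Multiset.filter_add, ih]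
    rw [e1]
    by_cases hs : s < n
    · have e2 : ∀ N, s ≤ N → (∑ u ∈ Finset.range N, if s ≤ u then l u - l (u + 1) else 0) + l N =
          l s := by
        intro N hN
        induction N, hN using Nat.le_induction with
        | base =>
          have : ∑ u ∈ Finset.range s, (if s ≤ u then l u - l (u + 1) else 0) = 0 := by
            refine Finset.sum_eq_zero fun u hu => ?_
            rw [Finset.mem_range] at hu
            rw [if_neg (by omega)]
          rw [this, zero_add]
        | succ N hN ih =>
          rw [Finset.sum_range_succ, if_pos hN]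
          have := h1 N
          omega
      have := e2 n hs.le
      rw [h2 n le_rfl, add_zero] at this
      exact this
    · rw [h2 s (by omega)]
      refine Finset.sum_eq_zero fun u hu => ?_
      rw [Finset.mem_range] at hu
      rw [if_neg (by omega)]
  have hsum : m.sum = n := by
    rw [← sum_eq (fun b hb => (hm b hb).2), Finset.sum_congr rfl fun s _ => hl s, h3]
  exact ⟨⟨m, fun {b} hb => (hm b hb).1, hsum⟩, funext hl⟩

end part

section lam

variable {K V : Type*} [Field K] [AddCommGroup V] [Module K V] [FiniteDimensional K V]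

theorem lam_anti (f : End K V) (j : ℕ) : lam f (j + 1) ≤ lam f j := by
  induction j generalizing V with
  | zero =>
    rw [← lam_res, ← finrank_ker', ← finrank_ker']
    have h1 : (LinearMap.ker (res f)).map (range f).subtype ≤ LinearMap.ker f := by
      rintro _ ⟨x, hx, rfl⟩
      rw [LinearMap.mem_ker]
      exact congrArg Subtype.val (LinearMap.mem_ker.1 hx)
    have h2 := Submodule.finrank_mono h1
    rwa [Submodule.finrank_map_subtype_eq] at h2
  | succ j ih =>
    have := ih (res f)
    rwa [lam_res, lam_res] at this

theorem rk_eq_zero_of_nilpotent {f : End K V} (hf : IsNilpotent f) {j : ℕ}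
    (hj : finrank K V ≤ j) : rk f j = 0 := by
  have h1 : f ^ j = 0 := by
    have h2 := hf.charpoly_eq_X_pow_finrank
    have h3 := LinearMap.aeval_self_charpoly f
    rw [h2, map_pow, Polynomial.aeval_X] at h3
    obtain ⟨k, rfl⟩ := Nat.exists_eq_add_of_le hj
    rw [pow_add, h3, zero_mul]
  rw [rk, h1]
  simp

theorem nilpotent_of_rk {f : End K V} {j : ℕ} (h : rk f j = 0) : IsNilpotent f := by
  refine ⟨j, ?_⟩
  rw [rk, Submodule.finrank_eq_zero, LinearMap.range_eq_bot] at h
  exact h

theorem sum_lam (f : End K V) (N : ℕ) : ∑ j ∈ Finset.range N, lam f j = rk f 0 - rk f N := by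
  induction N with
  | zero => simp
  | succ N ih =>
    rw [Finset.sum_range_succ, ih, lam]
    have := rk_anti f (Nat.zero_le N)
    have := rk_anti f (Nat.le_add_right N 1)
    omega

/-- the Jordan type -/
theorem exists_type {f : End K V} (hf : IsNilpotent f) {n : ℕ} (hn : finrank K V = n) :
    ∃ p : n.Partition, pl p = lam f := by
  refine exists_pl n (lam f) (lam_anti f) (fun s hs => ?_) ?_
  · rw [lam, rk_eq_zero_of_nilpotent hf (hn ▸ hs), Nat.zero_sub]
  · rw [sum_lam, rk_zero, rk_eq_zero_of_nilpotent hf (le_of_eq hn), hn, Nat.sub_zero]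

theorem nilpotent_of_lam {f : End K V} {n : ℕ} (hn : finrank K V = n) (p : n.Partition)
    (h : pl p = lam f) : IsNilpotent f := by
  apply nilpotent_of_rk (j := n)
  have h1 := sum_lam f n
  rw [← h, pl_sum, rk_zero, hn] at h1
  have h2 := rk_anti f (Nat.zero_le n)
  rw [rk_zero, hn] at h2
  omega

/-- number of automorphisms of the module of type `p` -/
noncomputable def ap (q : ℕ) {n : ℕ} (p : n.Partition) : ℚ := aa q n (pl p)

/-- order of the general linear group -/
noncomputable def gl (q n : ℕ) : ℚ := (q : ℚ) ^ (n ^ 2) * tt q n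

variable [Fintype K]

theorem card_type {n : ℕ} (hn : finrank K V = n) (p : n.Partition) :
    (Nat.card {f : End K V // lam f = pl p} : ℚ) * ap (Fintype.card K) p =
      gl (Fintype.card K) n := by
  -- ranks from the partition
  let r : ℕ → ℕ := fun j => n - ∑ s ∈ Finset.range j, pl p s
  have hle : ∀ j, ∑ s ∈ Finset.range j, pl p s ≤ n := fun j => by
    by_cases hj : j ≤ n
    · calc ∑ s ∈ Finset.range j, pl p s ≤ ∑ s ∈ Finset.range n, pl p s :=
          Finset.sum_le_sum_of_subset (Finset.range_subset_range.2 hj)
        _ = n := pl_sum p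
    · obtain ⟨k, hk⟩ := Nat.exists_eq_add_of_le (not_le.1 hj).le
      rw [hk, Finset.sum_range_add, pl_sum]
      have : ∑ x ∈ Finset.range k, pl p (n + x) = 0 :=
        Finset.sum_eq_zero fun x _ => pl_zero p (Nat.le_add_right n x)
      rw [this, add_zero]
  have hr : ∀ j, r j - r (j + 1) = pl p j := fun j => by
    have e1 := hle (j + 1)
    have e2 : ∑ s ∈ Finset.range (j + 1), pl p s = ∑ s ∈ Finset.range j, pl p s + pl p j :=
      Finset.sum_range_succ _ _
    simp only [r]
    omega
  have hr' : ∀ j, r (j + 1) ≤ r j := fun j => by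
    have e2 : ∑ s ∈ Finset.range (j + 1), pl p s = ∑ s ∈ Finset.range j, pl p s + pl p j :=
      Finset.sum_range_succ _ _
    simp only [r]
    omega
  have h0 : r 0 = n := by simp [r]
  have hN : r n = 0 := by simp only [r]; rw [pl_sum, Nat.sub_self]
  have key := NN_closed (K := K) n (V := V) r (by rw [h0, hn]) hr'
    (fun j => by rw [hr, hr]; exact pl_anti p j) hN
  rw [funext hr, h0] at key
  have hset : Nat.card {f : End K V // lam f = pl p} = NN K V r := by
    rw [NN]
    refine Nat.card_congr (Equiv.subtypeEquivRight fun f => ?_)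
    constructor
    · intro hf j
      have e1 := sum_lam f j
      rw [hf, rk_zero, hn] at e1
      have e2 := rk_anti f (Nat.zero_le j)
      rw [rk_zero, hn] at e2
      simp only [r]
      omega
    · intro hf
      funext j
      rw [lam, hf, hf, hr]
  rw [hset, ap, gl]
  exact key

end lam

end Vale.Agent.P291.H564
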